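import Vale.Agent.P243.LB.Defs

/-!
# P243, the lower bound `r₃ > 1/3`, block B: every surjective linear map is the projection of a
direction
-/

set_option autoImplicit false

namespace Vale.Agent.P243.LB.Dirn

open MeasureTheory Set Metric Module
open scoped ENNReal

/-- The kernel is a line. -/
theorem finrank_ker (φ : E →L[ℝ] ℝ × ℝ) (h : Function.Surjective φ) :
    finrank ℝ (LinearMap.ker (φ : E →ₗ[ℝ] ℝ × ℝ)) = 1 := by
  have h1 := LinearMap.finrank_range_add_finrank_ker (φ : E →ₗ[ℝ] ℝ × ℝ)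
  have h2 : LinearMap.range (φ : E →ₗ[ℝ] ℝ × ℝ) = ⊤ := LinearMap.range_eq_top.2 h
  rw [h2, finrank_top] at h1
  have h3 : finrank ℝ E = 3 := by simp
  have h4 : finrank ℝ (ℝ × ℝ) = 2 := by simp
  omega

/-- **Block B.** -/
theorem dir : P_dir := by
  intro φ hφ
  have hk := finrank_ker φ hφ
  -- the unit vector
  obtain ⟨u, hu1, hu2, hker⟩ : ∃ u : E, ‖u‖ = 1 ∧ φ u = 0 ∧ ∀ w : E, φ w = 0 → ∃ s : ℝ, w = s • u := by
    obtain ⟨v, hv⟩ := finrank_eq_one_iff'.1 hk
    obtain ⟨hv0, hv⟩ := hv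
    have hv0' : (v : E) ≠ 0 := fun h => hv0 (Subtype.ext h)
    have hn : ‖(v : E)‖ ≠ 0 := norm_ne_zero_iff.2 hv0'
    have hφv : φ (v : E) = 0 := v.2
    refine ⟨‖(v : E)‖⁻¹ • (v : E), ?_, ?_, ?_⟩
    · rw [norm_smul, norm_inv, norm_norm, inv_mul_cancel₀ hn]
    · rw [map_smul, hφv, smul_zero]
    · intro w hw
      obtain ⟨c, hc⟩ := hv ⟨w, hw⟩
      refine ⟨c * ‖(v : E)‖, ?_⟩
      have := congrArg Subtype.val hc
      rw [smul_smul, mul_assoc, mul_inv_cancel₀ hn, mul_one]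
      exact this.symm
  -- the section
  obtain ⟨ℓ, hℓ⟩ := φ.exists_rightInverse_of_surjective (LinearMap.range_eq_top.2 hφ)
  have hℓ' : ∀ y, φ (ℓ y) = y := fun y => by
    have := congrArg (fun f : (ℝ × ℝ) →L[ℝ] ℝ × ℝ => f y) hℓ
    exact this
  have hu0 : u ≠ 0 := by
    rintro rfl
    rw [norm_zero] at hu1
    exact zero_ne_one hu1
  have hdec : ∀ x : E, ∃ s : ℝ, x = ℓ (φ x) + s • u := by
    intro x
    obtain ⟨s, hs⟩ := hker (x - ℓ (φ x)) (by rw [map_sub, hℓ', sub_self])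
    exact ⟨s, by rw [← hs]; abel⟩
  -- the product decomposition
  set T₀ : ((ℝ × ℝ) × ℝ) →ₗ[ℝ] E :=
    (ℓ : (ℝ × ℝ) →ₗ[ℝ] E).comp (LinearMap.fst ℝ (ℝ × ℝ) ℝ) +
      (LinearMap.toSpanSingleton ℝ E u).comp (LinearMap.snd ℝ (ℝ × ℝ) ℝ) with hT₀
  have hT₀a : ∀ z, T₀ z = ℓ z.1 + z.2 • u := fun z => rfl
  have hinj : Function.Injective T₀ := by
    rw [← LinearMap.ker_eq_bot, LinearMap.ker_eq_bot']
    rintro ⟨y, s⟩ h
    rw [hT₀a] at h
    dsimp only at h
    have h1 : y = 0 := by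
      have h2 := congrArg φ h
      rw [map_add, hℓ', map_smul, hu2, smul_zero, add_zero, map_zero] at h2
      exact h2
    rw [h1, map_zero, zero_add] at h
    rw [h1, (smul_eq_zero.1 h).resolve_right hu0]
    rfl
  have hsurj : Function.Surjective T₀ := by
    intro x
    obtain ⟨s, hs⟩ := hdec x
    exact ⟨(φ x, s), hs.symm⟩
  set T : ((ℝ × ℝ) × ℝ) ≃L[ℝ] E := (LinearEquiv.ofBijective T₀ ⟨hinj, hsurj⟩).toContinuousLinearEquiv
    with hT
  have hTa : ∀ z, T z = ℓ z.1 + z.2 • u := fun z => hT₀a z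
  -- the measures
  set ν : Measure E := Measure.map T
    (((volume : Measure ℝ).prod (volume : Measure ℝ)).prod (volume : Measure ℝ)) with hν
  have hν1 : ν.IsAddHaarMeasure := by
    have h1 : ((volume : Measure ℝ).prod (volume : Measure ℝ)).IsAddHaarMeasure := inferInstance
    have h2 : (((volume : Measure ℝ).prod (volume : Measure ℝ)).prod
      (volume : Measure ℝ)).IsAddHaarMeasure := Measure.prod.instIsAddHaarMeasure _ _
    rw [hν]
    exact T.isAddHaarMeasure_map _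
  have hvol := Measure.isAddLeftInvariant_eq_smul (volume : Measure E) ν
  have hpos := Measure.addHaarScalarFactor_pos_of_isAddHaarMeasure (volume : Measure E) ν
  refine ⟨⟨u, φ, ℓ, (Measure.addHaarScalarFactor (volume : Measure E) ν : ℝ), hu1, hu2, hℓ', hdec,
    by exact_mod_cast hpos, ?_⟩, rfl⟩
  intro X hX
  have hT1 : Measurable T := T.continuous.measurable
  have h1 : volume X = (Measure.addHaarScalarFactor (volume : Measure E) ν • ν) X :=
    congrArg (fun μ : Measure E => μ X) hvol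
  rw [h1, Measure.smul_apply, ENNReal.ofReal_coe_nnreal]
  have h2 : ν X = ∫⁻ y : ℝ × ℝ, volume {s : ℝ | ℓ y + s • u ∈ X} := by
    rw [hν, Measure.map_apply hT1 hX, Measure.prod_apply (hT1 hX)]
    rfl
  rw [h2]
  rfl

end Vale.Agent.P243.LB.Dirn
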