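import Vale.Agent.P243.LB.Defs
import Vale.Agent.P243.Plain

/-!
# P243, the lower bound `r₃ > 1/3`, block G: from normalised bodies to all bodies

`main` : `P_norm`, `P_dir`, `P_core` give a `δ > 0` with `1 / 3 + δ ≤ C.relArea` for every cylinder
covering `C` of every convex body; `Amin_pos`, `total_ge`, `r3_gt`, `c3_gt`.
-/

set_option autoImplicit false

namespace Vale.Agent.P243.LB.G

open MeasureTheory Set Metric Vale.Agent.P243.Plain
open scoped RealInnerProductSpace ENNReal

/-! ### frames -/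

/-- the projection of a frame as a continuous linear map -/
noncomputable def projL (F : Frame) : (Fin 3 → ℝ) →L[ℝ] ℝ × ℝ :=
  LinearMap.toContinuousLinearMap
    { toFun := F.proj
      map_add' := fun x y => by
        unfold Frame.proj
        rw [dotProduct_add, dotProduct_add, Prod.mk_add_mk]
      map_smul' := fun c x => by
        unfold Frame.proj
        rw [dotProduct_smul, dotProduct_smul, RingHom.id_apply, Prod.smul_mk] }

theorem projL_apply (F : Frame) (x : Fin 3 → ℝ) : projL F x = F.proj x := rfl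

theorem proj_comb (F : Frame) (x : Fin 3 → ℝ) (α β : ℝ) :
    F.proj (x + (α • F.e + β • F.f)) = F.proj x + (α, β) := by
  have h1 : F.f ⬝ᵥ F.e = 0 := by rw [dotProduct_comm]; exact F.orthogonal
  unfold Frame.proj
  rw [dotProduct_add, dotProduct_add, dotProduct_add, dotProduct_add, dotProduct_smul,
    dotProduct_smul, dotProduct_smul, dotProduct_smul, F.norm_e, F.norm_f, F.orthogonal, h1]
  simp

theorem proj_surjective (F : Frame) : Function.Surjective F.proj := by
  intro y
  refine ⟨0 + (y.1 • F.e + y.2 • F.f), ?_⟩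
  rw [proj_comb, ← projL_apply, map_zero, zero_add]

/-- the standard frame -/
noncomputable def stdFrame : Frame where
  e := Pi.single 0 1
  f := Pi.single 1 1
  norm_e := by simp
  norm_f := by simp
  orthogonal := by simp

instance : Nonempty Frame := ⟨stdFrame⟩

theorem continuous_proj (F : Frame) : Continuous F.proj := (projL F).continuous

theorem volume_shadow_ne_top {K : Set (Fin 3 → ℝ)} (hK : IsCompact K) (F : Frame) :
    volume (F.proj '' K) ≠ ∞ :=
  (hK.image (continuous_proj F)).measure_lt_top.ne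

theorem sq_le_one_of {a : Fin 3 → ℝ} (h : a ⬝ᵥ a = 1) (i : Fin 3) : |a i| ≤ 1 := by
  have h1 : a i * a i ≤ a ⬝ᵥ a :=
    Finset.single_le_sum (f := fun j => a j * a j) (fun j _ => mul_self_nonneg _)
      (Finset.mem_univ i)
  rw [h] at h1
  rw [abs_le]
  constructor <;> nlinarith

/-- a convex body contains a ball, so its shadows have area at least `r²` -/
theorem shadow_ge {K : Set (Fin 3 → ℝ)} (hK : IsCompact K) {x₀ : Fin 3 → ℝ} {r : ℝ}
    (hr : 0 < r) (hb : ball x₀ r ⊆ K) (F : Frame) : r ^ 2 / 4 ≤ F.shadow K := by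
  set S : Set (ℝ × ℝ) := Icc ((F.proj x₀).1 - r / 4) ((F.proj x₀).1 + r / 4) ×ˢ
    Icc ((F.proj x₀).2 - r / 4) ((F.proj x₀).2 + r / 4) with hS
  have hsub : S ⊆ F.proj '' K := by
    rintro ⟨y₁, y₂⟩ ⟨h1, h2⟩
    simp only [mem_Icc] at h1 h2
    refine ⟨x₀ + ((y₁ - (F.proj x₀).1) • F.e + (y₂ - (F.proj x₀).2) • F.f), hb ?_, ?_⟩
    · rw [mem_ball, dist_eq_norm, add_sub_cancel_left]
      refine lt_of_le_of_lt ?_ (show r / 2 < r by linarith)
      rw [pi_norm_le_iff_of_nonneg (by linarith)]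
      intro i
      have he := sq_le_one_of F.norm_e i
      have hf := sq_le_one_of F.norm_f i
      rw [Pi.add_apply, Pi.smul_apply, Pi.smul_apply, smul_eq_mul, smul_eq_mul]
      have a1 : |y₁ - (F.proj x₀).1| ≤ r / 4 := by rw [abs_le]; constructor <;> linarith
      have a2 : |y₂ - (F.proj x₀).2| ≤ r / 4 := by rw [abs_le]; constructor <;> linarith
      calc ‖(y₁ - (F.proj x₀).1) * F.e i + (y₂ - (F.proj x₀).2) * F.f i‖
          ≤ |y₁ - (F.proj x₀).1| * |F.e i| + |y₂ - (F.proj x₀).2| * |F.f i| := by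
            refine (norm_add_le _ _).trans (le_of_eq ?_)
            rw [Real.norm_eq_abs, Real.norm_eq_abs, abs_mul, abs_mul]
        _ ≤ r / 4 * 1 + r / 4 * 1 := by gcongr
        _ = r / 2 := by ring
    · rw [proj_comb]
      ext <;> simp
  have hvol : volume S = ENNReal.ofReal (r ^ 2 / 4) := by
    rw [hS, Measure.volume_eq_prod, Measure.prod_prod, Real.volume_Icc, Real.volume_Icc,
      ← ENNReal.ofReal_mul (by linarith)]
    congr 1
    ring
  have h1 := measure_mono (μ := (volume : Measure (ℝ × ℝ))) hsub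
  rw [hvol] at h1
  exact (ENNReal.ofReal_le_iff_le_toReal (volume_shadow_ne_top hK F)).1 h1

theorem Amin_pos {K : Set (Fin 3 → ℝ)} (h : IsConvexBody K) : 0 < Amin K := by
  obtain ⟨hK, _, x₀, hx⟩ := h
  obtain ⟨r, hr, hb⟩ := Metric.isOpen_iff.1 isOpen_interior x₀ hx
  have h1 : r ^ 2 / 4 ≤ Amin K :=
    le_ciInf fun F => shadow_ge hK hr (hb.trans interior_subset) F
  have : 0 < r ^ 2 / 4 := by positivity
  linarith

theorem Amin_le (K : Set (Fin 3 → ℝ)) (F : Frame) : Amin K ≤ F.shadow K :=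
  ciInf_le ⟨0, by rintro _ ⟨G, rfl⟩; exact ENNReal.toReal_nonneg⟩ F

theorem relArea_le {K : Set (Fin 3 → ℝ)} (h : IsConvexBody K) (C : CylinderCovering K) :
    C.relArea ≤ C.totalArea / Amin K := by
  unfold CylinderCovering.relArea CylinderCovering.totalArea
  rw [Finset.sum_div]
  refine Finset.sum_le_sum fun i _ => ?_
  exact div_le_div_of_nonneg_left ENNReal.toReal_nonneg (Amin_pos h) (Amin_le K _)

/-! ### transfer to a normalised body -/

/-- `ℝ³` as a Euclidean space -/
noncomputable def eqv : E ≃L[ℝ] (Fin 3 → ℝ) := EuclideanSpace.equiv (Fin 3) ℝ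

/-- **Block G**: the lower bound for all bodies. -/
theorem main (hN : P_norm) (hD : P_dir) (hC : P_core) :
    ∃ δ : ℝ, 0 < δ ∧ ∀ K : Set (Fin 3 → ℝ), IsConvexBody K → ∀ C : CylinderCovering K,
      1 / 3 + δ ≤ C.relArea := by
  obtain ⟨C₀, hC₀, hN⟩ := hN
  obtain ⟨δ, hδ, hC⟩ := hC C₀ hC₀
  refine ⟨δ, hδ, fun K hK C => ?_⟩
  obtain ⟨hcpt, hcvx, hint⟩ := hK
  -- the body in the Euclidean space
  have h1 : IsCompact (eqv ⁻¹' K) := eqv.toHomeomorph.isCompact_preimage.2 hcpt
  have h2 : Convex ℝ (eqv ⁻¹' K) := hcvx.linear_preimage eqv.toLinearEquiv.toLinearMap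
  have h3 : (interior (eqv ⁻¹' K)).Nonempty := by
    have h4 : interior (eqv ⁻¹' K) = eqv ⁻¹' interior K :=
      (eqv.toHomeomorph.preimage_interior K).symm
    rw [h4]
    obtain ⟨x, hx⟩ := hint
    exact ⟨eqv.symm x, by rw [mem_preimage, eqv.apply_symm_apply]; exact hx⟩
  obtain ⟨L, v, hB⟩ := hN _ h1 h2 h3
  set K₂ : Set E := {x | L x + v ∈ eqv ⁻¹' K} with hK₂
  -- the directions
  set φ : Fin C.m → (E →L[ℝ] ℝ × ℝ) := fun i =>
    (projL (C.frame i)).comp ((eqv : E →L[ℝ] (Fin 3 → ℝ)).comp (L : E →L[ℝ] E)) with hφ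
  have hφa : ∀ i x, φ i x = (C.frame i).proj (eqv (L x)) := fun i x => rfl
  have hφs : ∀ i, Function.Surjective (φ i) := by
    intro i y
    obtain ⟨x, hx⟩ := proj_surjective (C.frame i) y
    refine ⟨L.symm (eqv.symm x), ?_⟩
    rw [hφa, L.apply_symm_apply, eqv.apply_symm_apply, hx]
  choose D hDφ using fun i => hD (φ i) (hφs i)
  set c : Fin C.m → ℝ × ℝ := fun i => (C.frame i).proj (eqv v) with hc
  have hkey : ∀ i x, (C.frame i).proj (eqv (L x + v)) = φ i x + c i := by
    intro i x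
    rw [hφa, hc, ← projL_apply, map_add, map_add, projL_apply, projL_apply]
  set B : Fin C.m → Set (ℝ × ℝ) := fun i => (fun y => y + c i) ⁻¹' C.base i with hBdef
  have hBv : ∀ i, volume (B i) = volume (C.base i) := fun i =>
    measure_preimage_add_right volume (c i) (C.base i)
  have hBn : ∀ i, NullMeasurableSet (B i) volume := fun i =>
    (C.measurable_base i).preimage
      (measurePreserving_add_right volume (c i)).quasiMeasurePreserving
  have hcov : K₂ ⊆ ⋃ i, {x | (D i).φ x ∈ B i} := by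
    intro x hx
    have h4 : eqv (L x + v) ∈ K := hx
    obtain ⟨i, hi⟩ := mem_iUnion.1 (C.covers h4)
    refine mem_iUnion.2 ⟨i, ?_⟩
    show (D i).φ x + c i ∈ C.base i
    rw [hDφ i, ← hkey]
    exact hi
  have hAr : ∀ i, Ar (D i) K₂ = (C.frame i).shadow K := by
    intro i
    unfold Ar Frame.shadow
    have h5 : (D i).φ '' K₂ = (fun y => y + c i) ⁻¹' ((C.frame i).proj '' K) := by
      rw [hDφ i]
      ext y
      constructor
      · rintro ⟨x, hx, rfl⟩
        exact ⟨eqv (L x + v), hx, hkey i x⟩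
      · rintro ⟨k, hk, hky⟩
        have h6 : L (L.symm (eqv.symm k - v)) + v = eqv.symm k := by
          rw [L.apply_symm_apply, sub_add_cancel]
        refine ⟨L.symm (eqv.symm k - v), ?_, ?_⟩
        · show eqv (L (L.symm (eqv.symm k - v)) + v) ∈ K
          rw [h6, eqv.apply_symm_apply]
          exact hk
        · have h7 := hkey i (L.symm (eqv.symm k - v))
          rw [h6, eqv.apply_symm_apply, hky] at h7
          exact (add_right_cancel h7).symm
    rw [h5, measure_preimage_add_right]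
  have h8 := hC K₂ hB C.m D B hBn (fun i => by rw [hBv]; exact C.finite_area i) hcov
  refine h8.trans (le_of_eq ?_)
  unfold CylinderCovering.relArea
  refine Finset.sum_congr rfl fun i _ => ?_
  rw [hBv, hAr]

/-! ### the constants -/

/-- the unit cube and its covering by one cylinder -/
theorem exists_body : ∃ K : Set (Fin 3 → ℝ), IsConvexBody K ∧ Nonempty (CylinderCovering K) := by
  refine ⟨closedBall 0 1, ⟨isCompact_closedBall _ _, convex_closedBall _ _, ?_⟩, ⟨?_⟩⟩
  · exact ⟨0, ball_subset_interior_closedBall (mem_ball_self one_pos)⟩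
  · have hc : IsCompact (stdFrame.proj '' closedBall (0 : Fin 3 → ℝ) 1) :=
      (isCompact_closedBall _ _).image (continuous_proj _)
    exact
      { m := 1
        frame := fun _ => stdFrame
        base := fun _ => stdFrame.proj '' closedBall 0 1
        measurable_base := fun _ => hc.measurableSet.nullMeasurableSet
        finite_area := fun _ => hc.measure_lt_top.ne
        covers := fun x hx => mem_iUnion.2 ⟨0, x, hx, rfl⟩ }

/-- the lower bound for the total area -/
theorem total_ge {δ : ℝ} (H : ∀ K : Set (Fin 3 → ℝ), IsConvexBody K →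
    ∀ C : CylinderCovering K, 1 / 3 + δ ≤ C.relArea) (K : Set (Fin 3 → ℝ))
    (hK : IsConvexBody K) (C : CylinderCovering K) : (1 / 3 + δ) * Amin K ≤ C.totalArea := by
  have h := (H K hK C).trans (relArea_le hK C)
  exact (le_div_iff₀ (Amin_pos hK)).1 h

theorem r3_ge {δ : ℝ} (H : ∀ K : Set (Fin 3 → ℝ), IsConvexBody K →
    ∀ C : CylinderCovering K, 1 / 3 + δ ≤ C.relArea) : 1 / 3 + δ ≤ r3 := by
  obtain ⟨K, hK, ⟨C⟩⟩ := exists_body
  refine le_csInf ⟨_, K, hK, C, rfl⟩ ?_
  rintro _ ⟨K', hK', C', rfl⟩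
  exact H K' hK' C'

theorem c3_ge {δ : ℝ} (H : ∀ K : Set (Fin 3 → ℝ), IsConvexBody K →
    ∀ C : CylinderCovering K, 1 / 3 + δ ≤ C.relArea) : 1 / 3 + δ ≤ c3 := by
  obtain ⟨K, hK, ⟨C⟩⟩ := exists_body
  refine le_csInf ⟨_, K, hK, C, rfl⟩ ?_
  rintro _ ⟨K', hK', C', rfl⟩
  exact (H K' hK' C').trans (relArea_le hK' C')

/-- **the lower bound `1 / 3 < r₃ ≤ c₃`-type statement**: one `δ > 0` for all bodies and coverings,
for both areas and both constants -/
theorem all (hN : P_norm) (hD : P_dir) (hC : P_core) :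
    ∃ δ : ℝ, 0 < δ ∧ (∀ K : Set (Fin 3 → ℝ), IsConvexBody K → ∀ C : CylinderCovering K,
      1 / 3 + δ ≤ C.relArea ∧ (1 / 3 + δ) * Amin K ≤ C.totalArea) ∧
      1 / 3 + δ ≤ r3 ∧ 1 / 3 + δ ≤ c3 := by
  obtain ⟨δ, hδ, H⟩ := main hN hD hC
  exact ⟨δ, hδ, fun K hK C => ⟨H K hK C, total_ge H K hK C⟩, r3_ge H, c3_ge H⟩

theorem r3_gt (hN : P_norm) (hD : P_dir) (hC : P_core) : 1 / 3 < r3 := by
  obtain ⟨δ, hδ, _, h, _⟩ := all hN hD hC
  linarith

theorem c3_gt (hN : P_norm) (hD : P_dir) (hC : P_core) : 1 / 3 < c3 := by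
  obtain ⟨δ, hδ, _, _, h⟩ := all hN hD hC
  linarith

end Vale.Agent.P243.LB.G
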