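import Vale.Agent.P243.LB.Defs

/-!
# P243, the lower bound `r₃ > 1/3`, block A: normalisation

A simplex of maximal volume in the convex body gives affine coordinates in which the body lies between
two balls.
-/

set_option autoImplicit false

namespace Vale.Agent.P243.LB.Norm

open Set Metric Matrix WithLp

/-- The matrix of the edges of the simplex `p 0, …, p 3` at `p 0`. -/
noncomputable def wm (p : Fin 4 → E) : Matrix (Fin 3) (Fin 3) ℝ :=
  Matrix.of fun i j => (p j.succ - p 0) i

theorem continuous_wm : Continuous wm := by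
  unfold wm
  refine continuous_matrix fun i j => ?_
  simp only [Matrix.of_apply]
  fun_prop

theorem wm_update (p : Fin 4 → E) (i : Fin 3) (x : E) :
    wm (Function.update p i.succ x) = (wm p).updateCol i (ofLp (x - p 0)) := by
  ext a b
  unfold wm
  have h0 : Function.update p i.succ x 0 = p 0 :=
    Function.update_of_ne (Fin.succ_ne_zero i).symm _ _
  rw [Matrix.of_apply, Matrix.updateCol_apply, h0]
  split_ifs with h
  · rw [h, Function.update_self]
  · rw [Function.update_of_ne (fun h' => h (Fin.succ_injective _ h')), Matrix.of_apply]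

/-- A non-degenerate simplex in the interior. -/
theorem exists_ne {K : Set E} (h : (interior K).Nonempty) :
    ∃ p : Fin 4 → E, (∀ i, p i ∈ K) ∧ (wm p).det ≠ 0 := by
  obtain ⟨x, hx⟩ := h
  obtain ⟨ε, hε, hb⟩ := Metric.isOpen_iff.1 isOpen_interior x hx
  refine ⟨Fin.cons x fun j => x + EuclideanSpace.single j (ε / 2), ?_, ?_⟩
  · intro i
    refine Fin.cases ?_ ?_ i
    · exact interior_subset hx
    · intro j
      refine interior_subset (hb ?_)
      rw [Fin.cons_succ, mem_ball, dist_eq_norm, add_sub_cancel_left, EuclideanSpace.norm_single,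
        Real.norm_of_nonneg (by positivity)]
      linarith
  · have e : wm (Fin.cons x fun j => x + EuclideanSpace.single j (ε / 2)) =
        (ε / 2) • (1 : Matrix (Fin 3) (Fin 3) ℝ) := by
      ext i j
      unfold wm
      rw [Matrix.of_apply, Fin.cons_succ, Fin.cons_zero, add_sub_cancel_left, Matrix.smul_apply,
        Matrix.one_apply]
      simp only [PiLp.single_apply, smul_eq_mul]
      split_ifs <;> simp
    rw [e, Matrix.det_smul, Matrix.det_one]
    simp
    positivity

/-- **Block A.** -/
theorem norm : P_norm := by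
  refine ⟨26, by norm_num, fun K hK hc hi => ?_⟩
  -- the simplex of maximal volume
  obtain ⟨p₀, hp₀, hd₀⟩ := exists_ne hi
  have hcpt : IsCompact (Set.univ.pi fun _ : Fin 4 => K) := isCompact_univ_pi fun _ => hK
  obtain ⟨p, hp, hmax⟩ := hcpt.exists_isMaxOn ⟨p₀, fun i _ => hp₀ i⟩
    (f := fun p => |(wm p).det|) (continuous_wm.matrix_det.abs.continuousOn)
  have hp' : ∀ i, p i ∈ K := fun i => hp i (mem_univ i)
  have hd : (wm p).det ≠ 0 := by
    intro h0
    have h1 : |(wm p₀).det| ≤ |(wm p).det| := hmax (fun i _ => hp₀ i)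
    rw [h0, abs_zero] at h1
    exact hd₀ (abs_eq_zero.1 (le_antisymm h1 (abs_nonneg _)))
  set W := wm p with hW
  -- the coordinates
  have hcoord : ∀ y : Fin 3 → ℝ, p 0 + toLp 2 (W *ᵥ y) ∈ K → ∀ i, |y i| ≤ 1 := by
    intro y hy i
    set x := p 0 + toLp 2 (W *ᵥ y) with hx
    have h1 : |(wm (Function.update p i.succ x)).det| ≤ |W.det| := hmax (fun j _ => by
      by_cases h : j = i.succ
      · rw [h, Function.update_self]
        exact hy
      · rw [Function.update_of_ne h]
        exact hp' j)
    rw [wm_update, hx, add_sub_cancel_left, ← Matrix.cramer_apply,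
      Matrix.cramer_eq_adjugate_mulVec, Matrix.mulVec_mulVec, Matrix.adjugate_mul,
      Matrix.smul_mulVec, Matrix.one_mulVec, Pi.smul_apply, smul_eq_mul, abs_mul] at h1
    exact le_of_mul_le_mul_left (by rwa [mul_one]) (abs_pos.2 hd)
  -- the simplex
  have hsimp : ∀ y : Fin 3 → ℝ, (∀ i, 0 ≤ y i) → ∑ i, y i ≤ 1 → p 0 + toLp 2 (W *ᵥ y) ∈ K := by
    intro y h1 h2
    have h3 : ∑ i : Fin 4, (Fin.cons (1 - ∑ i, y i) y : Fin 4 → ℝ) i • p i ∈ K := by
      refine hc.sum_mem (fun i _ => ?_) ?_ (fun i _ => hp' i)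
      · refine Fin.cases ?_ ?_ i
        · rw [Fin.cons_zero]
          linarith
        · intro j
          rw [Fin.cons_succ]
          exact h1 j
      · rw [Fin.sum_univ_succ, Fin.cons_zero]
        simp only [Fin.cons_succ]
        ring
    have e : ∑ i : Fin 4, (Fin.cons (1 - ∑ i, y i) y : Fin 4 → ℝ) i • p i =
        p 0 + toLp 2 (W *ᵥ y) := by
      rw [Fin.sum_univ_succ, Fin.cons_zero]
      simp only [Fin.cons_succ]
      ext a
      simp only [PiLp.add_apply, PiLp.smul_apply, smul_eq_mul, Fin.sum_univ_three, Matrix.mulVec,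
        dotProduct, hW, wm, Matrix.of_apply, PiLp.sub_apply]
      ring
    rw [← e]
    exact h3
  -- the linear map
  set f : E →ₗ[ℝ] E := Matrix.toEuclideanLin ((1 / 12 : ℝ) • W) with hf
  have hfa : ∀ x : E, f x = toLp 2 (W *ᵥ ((1 / 12 : ℝ) • ofLp x)) := by
    intro x
    rw [hf, Matrix.toLpLin_apply, Matrix.smul_mulVec, Matrix.mulVec_smul]
  have hinj : Function.Injective f := by
    rw [← LinearMap.ker_eq_bot, LinearMap.ker_eq_bot']
    intro x hx
    rw [hfa] at hx
    have h1 : W *ᵥ ((1 / 12 : ℝ) • ofLp x) = 0 := by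
      have := congrArg ofLp hx
      simpa using this
    have h2 := Matrix.eq_zero_of_mulVec_eq_zero hd h1
    have h3 : ofLp x = 0 := by
      have := (smul_eq_zero.1 h2).resolve_left (by norm_num)
      exact this
    exact (WithLp.ofLp_eq_zero 2).1 h3
  set L : E ≃L[ℝ] E := (LinearEquiv.ofInjectiveEndo f hinj).toContinuousLinearEquiv with hL
  have hLa : ∀ x : E, L x = toLp 2 (W *ᵥ ((1 / 12 : ℝ) • ofLp x)) := fun x => hfa x
  set c : Fin 3 → ℝ := fun _ => 1 / 4 with hcc
  set v : E := p 0 + toLp 2 (W *ᵥ c) with hv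
  have hkey : ∀ x : E, L x + v = p 0 + toLp 2 (W *ᵥ (c + (1 / 12 : ℝ) • ofLp x)) := by
    intro x
    rw [hLa, hv, Matrix.mulVec_add, WithLp.toLp_add]
    abel
  refine ⟨L, v, ?_, ?_, ?_, ?_⟩
  · exact ((L.toHomeomorph.trans (Homeomorph.addRight v)).isCompact_preimage).2 hK
  · intro x hx y hy a b ha hb hab
    show L (a • x + b • y) + v ∈ K
    have e : L (a • x + b • y) + v = a • (L x + v) + b • (L y + v) := by
      have e1 : a • (L x + v) + b • (L y + v) = L (a • x + b • y) + (a + b) • v := by
        rw [map_add, map_smul, map_smul]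
        module
      rw [e1, hab, one_smul]
    rw [e]
    exact hc hx hy ha hb hab
  · intro x hx
    rw [mem_closedBall_zero_iff] at hx
    show L x + v ∈ K
    rw [hkey]
    have h1 : ∀ i, |x i| ≤ 1 := fun i => by
      have := PiLp.norm_apply_le x i
      rw [Real.norm_eq_abs] at this
      exact this.trans hx
    refine hsimp _ (fun i => ?_) ?_
    · have := abs_le.1 (h1 i)
      simp only [hcc, Pi.add_apply, Pi.smul_apply, smul_eq_mul]
      linarith [this.1]
    · rw [Fin.sum_univ_three]
      have a0 := abs_le.1 (h1 0)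
      have a1 := abs_le.1 (h1 1)
      have a2 := abs_le.1 (h1 2)
      simp only [hcc, Pi.add_apply, Pi.smul_apply, smul_eq_mul]
      linarith [a0.2, a1.2, a2.2]
  · intro x hx
    rw [mem_closedBall_zero_iff]
    have h1 : L x + v ∈ K := hx
    rw [hkey] at h1
    have h2 : ∀ i, |x i| ≤ 15 := by
      intro i
      have h3 := hcoord _ h1 i
      simp only [hcc, Pi.add_apply, Pi.smul_apply, smul_eq_mul] at h3
      rw [abs_le] at h3 ⊢
      constructor <;> linarith [h3.1, h3.2]
    rw [EuclideanSpace.norm_eq, Real.sqrt_le_left (by norm_num), Fin.sum_univ_three]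
    have h4 : ∀ i, ‖x i‖ ^ 2 ≤ 225 := by
      intro i
      rw [Real.norm_eq_abs, sq_abs]
      have h5 := abs_le.1 (h2 i)
      nlinarith [h5.1, h5.2]
    linarith [h4 0, h4 1, h4 2]

end Vale.Agent.P243.LB.Norm
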