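import Vale.Agent.P243.LB.Defs

/-!
# P243, the lower bound, block E: separated sharp points are few
-/

set_option autoImplicit false

namespace Vale.Agent.P243.LB

open MeasureTheory Set Metric
open scoped RealInnerProductSpace ENNReal

/-- The volume bound for separated families of points. -/
theorem packing_card {ι : Type*} [Fintype ι] (x : ι → E) {R ρ : ℝ} (hρ : 0 < ρ) (hR : 0 ≤ R)
    (hx : ∀ i, ‖x i‖ ≤ R) (hsep : ∀ i j, i ≠ j → 2 * ρ ≤ dist (x i) (x j)) :
    (Fintype.card ι : ℝ) * ρ ^ 3 ≤ (R + ρ) ^ 3 := by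
  have hdisj : Pairwise (Function.onFun Disjoint fun i => ball (x i) ρ) := by
    intro i j hij
    exact ball_disjoint_ball (by linarith [hsep i j hij])
  have hsub : (⋃ i, ball (x i) ρ) ⊆ ball 0 (R + ρ) := by
    intro y hy
    obtain ⟨i, hi⟩ := mem_iUnion.1 hy
    rw [mem_ball] at hi ⊢
    have h0 : dist (x i) 0 ≤ R := by rw [dist_zero_right]; exact hx i
    linarith [dist_triangle y (x i) 0]
  have hfin : Module.finrank ℝ E = 3 := by simp
  have h2 : ∀ i, volume (ball (x i) ρ) = ENNReal.ofReal (ρ ^ 3) * volume (ball (0 : E) 1) := by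
    intro i
    rw [Measure.addHaar_ball _ _ hρ.le, hfin]
  have h3 : volume (ball (0 : E) (R + ρ)) =
      ENNReal.ofReal ((R + ρ) ^ 3) * volume (ball (0 : E) 1) := by
    rw [Measure.addHaar_ball _ _ (by linarith), hfin]
  have h1 : volume (⋃ i, ball (x i) ρ) = ∑ i, volume (ball (x i) ρ) := by
    rw [measure_iUnion hdisj fun i => measurableSet_ball, tsum_fintype]
  have h4 : (Fintype.card ι : ℝ≥0∞) * ENNReal.ofReal (ρ ^ 3) * volume (ball (0 : E) 1) ≤
      ENNReal.ofReal ((R + ρ) ^ 3) * volume (ball (0 : E) 1) := by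
    rw [← h3]
    refine le_trans (le_of_eq ?_) (measure_mono hsub)
    rw [h1, Finset.sum_congr rfl fun i _ => h2 i, Finset.sum_const, Finset.card_univ,
      nsmul_eq_mul, mul_assoc]
  have hv0 : volume (ball (0 : E) 1) ≠ 0 := (measure_ball_pos volume (0 : E) one_pos).ne'
  have hv1 : volume (ball (0 : E) 1) ≠ ∞ := measure_ball_lt_top.ne
  have h5 : (Fintype.card ι : ℝ≥0∞) * ENNReal.ofReal (ρ ^ 3) ≤ ENNReal.ofReal ((R + ρ) ^ 3) :=
    (ENNReal.mul_le_mul_iff_left hv0 hv1).1 h4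
  have h6 := ENNReal.toReal_mono ENNReal.ofReal_ne_top h5
  rwa [ENNReal.toReal_mul, ENNReal.toReal_natCast, ENNReal.toReal_ofReal (by positivity),
    ENNReal.toReal_ofReal (by positivity)] at h6

/-- **Block E**. -/
theorem pack : P_pack := by
  intro C₀ C₁ c₁ hC₀ hC₁ hc₁
  refine ⟨64 * (C₀ + 2 * C₁ + 1) ^ 3 / c₁, by positivity, ?_⟩
  intro t ht ht1 K hK P hP hsep
  have hS : ∀ p : {p // p ∈ P}, ∃ a b w : E, ‖w‖ = 1 ∧ ⟪a, w⟫ = 1 ∧ ⟪b, w⟫ = 1 ∧ ‖a‖ ≤ C₁ ∧
      ‖b‖ ≤ C₁ ∧ c₁ ≤ ‖a - b‖ ∧ (∀ x ∈ K, ⟪a, x - p⟫ ≤ t ^ 2 / 32) ∧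
      ∀ x ∈ K, ⟪b, x - p⟫ ≤ t ^ 2 / 32 := fun p => (hP p p.2).2
  choose a b w hw haw hbw ha hb hab hKa hKb using hS
  set n : ℕ := ⌊1 / t⌋₊ with hn
  set m : ℕ := ⌊c₁ / t⌋₊ with hm
  -- the parameters
  have hs : ∀ i : Fin (n + 1), 1 ≤ 1 + (i : ℝ) * t ∧ 1 + (i : ℝ) * t ≤ 2 := by
    intro i
    have h1 : ((i : ℕ) : ℝ) ≤ 1 / t := by
      refine le_trans ?_ (Nat.floor_le (by positivity : 0 ≤ 1 / t))
      exact_mod_cast Nat.lt_succ_iff.1 i.2
    rw [le_div_iff₀ ht] at h1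
    constructor
    · have : 0 ≤ (i : ℝ) * t := by positivity
      linarith
    · linarith
  have hθ : ∀ j : Fin (m + 1), 0 ≤ (j : ℝ) * t / c₁ ∧ (j : ℝ) * t / c₁ ≤ 1 := by
    intro j
    have h1 : ((j : ℕ) : ℝ) ≤ c₁ / t := by
      refine le_trans ?_ (Nat.floor_le (by positivity : 0 ≤ c₁ / t))
      exact_mod_cast Nat.lt_succ_iff.1 j.2
    rw [le_div_iff₀ ht] at h1
    refine ⟨by positivity, ?_⟩
    rw [div_le_one hc₁]
    exact h1
  -- the convex combinations
  let W : {p // p ∈ P} → Fin (m + 1) → E := fun p j =>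
    (1 - (j : ℝ) * t / c₁) • a p + ((j : ℝ) * t / c₁) • b p
  have hWn : ∀ p j, ‖W p j‖ ≤ C₁ := by
    intro p j
    obtain ⟨h0, h1⟩ := hθ j
    calc ‖W p j‖ ≤ ‖(1 - (j : ℝ) * t / c₁) • a p‖ + ‖((j : ℝ) * t / c₁) • b p‖ :=
          norm_add_le _ _
      _ = (1 - (j : ℝ) * t / c₁) * ‖a p‖ + ((j : ℝ) * t / c₁) * ‖b p‖ := by
          rw [norm_smul, norm_smul, Real.norm_of_nonneg (by linarith), Real.norm_of_nonneg h0]
      _ ≤ (1 - (j : ℝ) * t / c₁) * C₁ + ((j : ℝ) * t / c₁) * C₁ := by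
          gcongr
          · exact ha p
          · exact hb p
      _ = C₁ := by ring
  have hWw : ∀ p j, ⟪W p j, w p⟫ = 1 := by
    intro p j
    simp only [W, inner_add_left, real_inner_smul_left, haw, hbw]
    ring
  have hWK : ∀ p j, ∀ x ∈ K, ⟪W p j, x - p⟫ ≤ t ^ 2 / 32 := by
    intro p j x hx
    obtain ⟨h0, h1⟩ := hθ j
    simp only [W, inner_add_left, real_inner_smul_left]
    have e1 := mul_le_mul_of_nonneg_left (hKa p x hx) (by linarith : 0 ≤ 1 - (j : ℝ) * t / c₁)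
    have e2 := mul_le_mul_of_nonneg_left (hKb p x hx) h0
    linarith
  let x : ({p // p ∈ P} × Fin (n + 1) × Fin (m + 1)) → E := fun k =>
    (k.1 : E) + (1 + (k.2.1 : ℝ) * t) • W k.1 k.2.2
  have hxn : ∀ k, ‖x k‖ ≤ C₀ + 2 * C₁ := by
    intro k
    have h1 : ‖(k.1 : E)‖ ≤ C₀ := by
      have := hK (hP k.1 k.1.2).1
      rwa [mem_closedBall, dist_zero_right] at this
    obtain ⟨hs1, hs2⟩ := hs k.2.1
    calc ‖x k‖ ≤ ‖(k.1 : E)‖ + ‖(1 + (k.2.1 : ℝ) * t) • W k.1 k.2.2‖ := norm_add_le _ _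
      _ = ‖(k.1 : E)‖ + (1 + (k.2.1 : ℝ) * t) * ‖W k.1 k.2.2‖ := by
          rw [norm_smul, Real.norm_of_nonneg (by linarith)]
      _ ≤ C₀ + 2 * C₁ := by
          gcongr
          exact hWn _ _
  have hxsep : ∀ k l, k ≠ l → 2 * (t / 4) ≤ dist (x k) (x l) := by
    rintro ⟨p, i, j⟩ ⟨q, i', j'⟩ hkl
    obtain ⟨hi1, hi2⟩ := hs i
    obtain ⟨hi1', hi2'⟩ := hs i'
    by_cases hpq : p = q
    · subst hpq
      by_cases hii : i = i'
      · subst hii
        have hjj : j ≠ j' := by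
          rintro rfl
          exact hkl rfl
        have e : x (p, i, j) - x (p, i, j') =
            ((1 + (i : ℝ) * t) * (((j' : ℝ) - j) * t / c₁)) • (a p - b p) := by
          simp only [x, W]
          module
        have hjj1 : 1 ≤ |((j' : ℕ) : ℝ) - (j : ℕ)| := by
          have h1 : ((j' : ℕ) : ℤ) - ((j : ℕ) : ℤ) ≠ 0 := by
            intro h
            apply hjj
            ext
            omega
          have h2 := Int.one_le_abs h1
          exact_mod_cast h2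
        rw [dist_eq_norm, e, norm_smul, Real.norm_eq_abs, abs_mul, abs_div, abs_mul,
          abs_of_nonneg (by linarith : 0 ≤ 1 + (i : ℝ) * t), abs_of_pos ht, abs_of_pos hc₁]
        have h3 : t ≤ (|((j' : ℕ) : ℝ) - (j : ℕ)| * t / c₁) * ‖a p - b p‖ := by
          calc t = (1 * t / c₁) * c₁ := by field_simp
            _ ≤ (|((j' : ℕ) : ℝ) - (j : ℕ)| * t / c₁) * ‖a p - b p‖ := by
                gcongr
                exact hab p
        have h4 : 0 ≤ (|((j' : ℕ) : ℝ) - (j : ℕ)| * t / c₁) * ‖a p - b p‖ := by positivity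
        have h5 : 1 * ((|((j' : ℕ) : ℝ) - (j : ℕ)| * t / c₁) * ‖a p - b p‖) ≤
            (1 + (i : ℝ) * t) * ((|((j' : ℕ) : ℝ) - (j : ℕ)| * t / c₁) * ‖a p - b p‖) :=
          mul_le_mul_of_nonneg_right hi1 h4
        rw [mul_assoc]
        linarith
      · have e : ⟪x (p, i, j) - x (p, i', j'), w p⟫ = ((i : ℝ) - i') * t := by
          have : x (p, i, j) - x (p, i', j') =
              (1 + (i : ℝ) * t) • W p j - (1 + (i' : ℝ) * t) • W p j' := by
            simp only [x]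
            abel
          rw [this, inner_sub_left, real_inner_smul_left, real_inner_smul_left, hWw, hWw]
          ring
        have h1 : |((i : ℝ) - i') * t| ≤ ‖x (p, i, j) - x (p, i', j')‖ := by
          rw [← e]
          have := abs_real_inner_le_norm (x (p, i, j) - x (p, i', j')) (w p)
          rwa [hw, mul_one] at this
        have hii1 : 1 ≤ |((i : ℕ) : ℝ) - (i' : ℕ)| := by
          have h1 : ((i : ℕ) : ℤ) - ((i' : ℕ) : ℤ) ≠ 0 := by
            intro h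
            apply hii
            ext
            omega
          have h2 := Int.one_le_abs h1
          exact_mod_cast h2
        rw [abs_mul, abs_of_pos ht] at h1
        have h2 : 1 * t ≤ |((i : ℕ) : ℝ) - (i' : ℕ)| * t := mul_le_mul_of_nonneg_right hii1 ht.le
        rw [dist_eq_norm]
        linarith
    · -- different sharp points
      have hd : t ≤ ‖(p : E) - q‖ := by
        have := hsep p p.2 q q.2 fun h => hpq (Subtype.ext h)
        rwa [dist_eq_norm] at this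
      set s : ℝ := 1 + (i : ℝ) * t with hsdef
      set s' : ℝ := 1 + (i' : ℝ) * t with hs'def
      have e : x (p, i, j) - x (q, i', j') = ((p : E) - q) + (s • W p j - s' • W q j') := by
        simp only [x, ← hsdef, ← hs'def]
        abel
      have h1 : ⟪W p j, (q : E) - p⟫ ≤ t ^ 2 / 32 := hWK p j q (hP q q.2).1
      have h2 : ⟪W q j', (p : E) - q⟫ ≤ t ^ 2 / 32 := hWK q j' p (hP p p.2).1
      have h1' : -(t ^ 2 / 32) ≤ ⟪W p j, (p : E) - q⟫ := by
        have : ⟪W p j, (p : E) - q⟫ = -⟪W p j, (q : E) - p⟫ := by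
          rw [← inner_neg_right, neg_sub]
        rw [this]
        linarith
      have h3 : ‖x (p, i, j) - x (q, i', j')‖ ^ 2 =
          ‖(p : E) - q‖ ^ 2 + 2 * (s * ⟪W p j, (p : E) - q⟫ - s' * ⟪W q j', (p : E) - q⟫) +
            ‖s • W p j - s' • W q j'‖ ^ 2 := by
        rw [e, norm_add_sq_real, real_inner_comm, inner_sub_left, real_inner_smul_left,
          real_inner_smul_left]
      have h4 : t ^ 2 ≤ ‖(p : E) - q‖ ^ 2 := by gcongr
      have h5 : -(2 * (t ^ 2 / 32)) ≤ s * ⟪W p j, (p : E) - q⟫ := by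
        nlinarith [mul_nonneg (by linarith : 0 ≤ s) (by linarith : 0 ≤ ⟪W p j, (p : E) - q⟫ + t ^ 2 / 32),
          mul_nonneg (by linarith : 0 ≤ 2 - s) (by positivity : 0 ≤ t ^ 2 / 32)]
      have h6 : s' * ⟪W q j', (p : E) - q⟫ ≤ 2 * (t ^ 2 / 32) := by
        nlinarith [mul_nonneg (by linarith : 0 ≤ s') (by linarith : 0 ≤ t ^ 2 / 32 - ⟪W q j', (p : E) - q⟫),
          mul_nonneg (by linarith : 0 ≤ 2 - s') (by positivity : 0 ≤ t ^ 2 / 32)]
      have h7 : (t / 2) ^ 2 ≤ ‖x (p, i, j) - x (q, i', j')‖ ^ 2 := by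
        rw [h3]
        nlinarith [sq_nonneg ‖s • W p j - s' • W q j'‖]
      have h8 : t / 2 ≤ ‖x (p, i, j) - x (q, i', j')‖ := by
        refine le_of_sq_le_sq ?_ (norm_nonneg _)
        exact h7
      rw [dist_eq_norm]
      linarith
  have hcount := packing_card x (by positivity : 0 < t / 4) (by positivity : 0 ≤ C₀ + 2 * C₁) hxn
    hxsep
  rw [Fintype.card_prod, Fintype.card_prod, Fintype.card_fin, Fintype.card_fin,
    Fintype.card_coe] at hcount
  push_cast at hcount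
  have hn1 : 1 / t ≤ (n : ℝ) + 1 := (Nat.lt_floor_add_one (1 / t)).le
  have hm1 : c₁ / t ≤ (m : ℝ) + 1 := (Nat.lt_floor_add_one (c₁ / t)).le
  have h9 : (P.card : ℝ) * (1 / t * (c₁ / t)) * (t / 4) ^ 3 ≤ (C₀ + 2 * C₁ + 1) ^ 3 := by
    calc (P.card : ℝ) * (1 / t * (c₁ / t)) * (t / 4) ^ 3
        ≤ (P.card : ℝ) * (((n : ℝ) + 1) * ((m : ℝ) + 1)) * (t / 4) ^ 3 := by gcongr
      _ ≤ (C₀ + 2 * C₁ + t / 4) ^ 3 := hcount
      _ ≤ (C₀ + 2 * C₁ + 1) ^ 3 := by
          gcongr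
          linarith
  have h10 : (P.card : ℝ) * (1 / t * (c₁ / t)) * (t / 4) ^ 3 = (P.card : ℝ) * t * c₁ / 64 := by
    field_simp
    ring
  rw [h10] at h9
  rw [le_div_iff₀ hc₁]
  linarith

end Vale.Agent.P243.LB
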