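import Vale.Agent.P243.LB.Core
import Vale.Agent.P243.LB.Dir
import Vale.Agent.P243.LB.Fin
import Vale.Agent.P243.LB.Norm
import Vale.Agent.P243.LB.Pack

/-!
# P243, the lower bound `r₃ > 1/3`: all blocks together
-/

set_option autoImplicit false

namespace Vale.Agent.P243.LB

open Vale.Agent.P243.Plain

theorem core : P_core := core_of H713.p_rs (sharp_of H713.p_rs H713.p_tent) pack

/-- **The lower bound**: one `δ > 0` for all convex bodies and all coverings by cylinders. -/
theorem lower : ∃ δ : ℝ, 0 < δ ∧ (∀ K : Set (Fin 3 → ℝ), IsConvexBody K →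
    ∀ C : CylinderCovering K,
      1 / 3 + δ ≤ C.relArea ∧ (1 / 3 + δ) * Amin K ≤ C.totalArea) ∧
      1 / 3 + δ ≤ r3 ∧ 1 / 3 + δ ≤ c3 :=
  G.all Norm.norm Dirn.dir core

end Vale.Agent.P243.LB
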