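import Vale.Agent.P243.LB.Mes

/-!
# P243, the lower bound `r₃ > 1/3`, block F: the lower bound for normalised bodies
-/

set_option autoImplicit false

namespace Vale.Agent.P243.LB

open MeasureTheory Set Metric
open scoped RealInnerProductSpace ENNReal

variable {C₀ : ℝ} {K : Set E}

/-- A maximal separated family. -/
theorem exists_max {S : Set E} {t M : ℝ} (ht : 0 < t)
    (h : ∀ P : Finset E, (∀ p ∈ P, p ∈ S) → (∀ p ∈ P, ∀ q ∈ P, p ≠ q → t ≤ dist p q) →
      (P.card : ℝ) * t ≤ M) :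
    ∃ P : Finset E, (P.card : ℝ) * t ≤ M ∧ ∀ q ∈ S, ∃ p ∈ P, dist q p < t := by
  classical
  by_contra hcon
  push Not at hcon
  have key : ∀ n : ℕ, ∃ P : Finset E, P.card = n ∧ (∀ p ∈ P, p ∈ S) ∧
      (∀ p ∈ P, ∀ q ∈ P, p ≠ q → t ≤ dist p q) := by
    intro n
    induction n with
    | zero => exact ⟨∅, rfl, by simp, by simp⟩
    | succ n ih =>
      obtain ⟨P, hc, hS, hsep⟩ := ih
      obtain ⟨q, hq, hqP⟩ := hcon P (h P hS hsep)
      have hqn : q ∉ P := fun hm => by
        have := hqP q hm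
        rw [dist_self] at this
        linarith
      refine ⟨insert q P, by rw [Finset.card_insert_of_notMem hqn, hc], ?_, ?_⟩
      · intro p hp
        rcases Finset.mem_insert.1 hp with rfl | hp
        · exact hq
        · exact hS p hp
      · intro p hp r hr hpr
        rcases Finset.mem_insert.1 hp with hp' | hp'
        · rcases Finset.mem_insert.1 hr with hr' | hr'
          · exact absurd (hp'.trans hr'.symm) hpr
          · rw [hp']; exact hqP r hr'
        · rcases Finset.mem_insert.1 hr with hr' | hr'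
          · rw [hr', dist_comm]; exact hqP p hp'
          · exact hsep p hp' r hr' hpr
  obtain ⟨n, hn⟩ := exists_nat_gt (M / t)
  obtain ⟨P, hc, hS, hsep⟩ := key n
  have h1 := h P hS hsep
  rw [hc] at h1
  rw [div_lt_iff₀ ht] at hn
  linarith

/-- The neighbourhood of a finite set. -/
def nb (P : Finset E) (r : ℝ) : Set E := ⋃ p ∈ P, closedBall p r

theorem meas_nb (P : Finset E) (r : ℝ) : MeasurableSet (nb P r) :=
  Finset.measurableSet_biUnion P fun _ _ => measurableSet_closedBall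

theorem vol_nb_le (P : Finset E) {r : ℝ} (hr : 0 ≤ r) :
    volume (nb P r) ≤ P.card * (ENNReal.ofReal (r ^ 3) * volume (ball (0 : E) 1)) := by
  have hfin : Module.finrank ℝ E = 3 := by simp
  have h1 : volume (nb P r) ≤ ∑ p ∈ P, volume (closedBall p r) := measure_biUnion_finset_le _ _
  have h2 : ∀ p ∈ P, volume (closedBall p r) =
      ENNReal.ofReal (r ^ 3) * volume (ball (0 : E) 1) := by
    intro p _
    rw [Measure.addHaar_closedBall _ _ hr, hfin]
  rwa [Finset.sum_congr rfl h2, Finset.sum_const, nsmul_eq_mul] at h1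

theorem vol_nb (P : Finset E) {r : ℝ} (hr : 0 ≤ r) :
    (volume (K ∩ nb P r)).toReal ≤ P.card * (r ^ 3 * (volume (ball (0 : E) 1)).toReal) := by
  have h1 := (measure_mono inter_subset_right).trans (vol_nb_le P hr) (a := volume (K ∩ nb P r))
  have h3 := ENNReal.toReal_mono (ENNReal.mul_ne_top (ENNReal.natCast_ne_top _)
    (ENNReal.mul_ne_top ENNReal.ofReal_ne_top measure_ball_lt_top.ne)) h1
  rwa [ENNReal.toReal_mul, ENNReal.toReal_mul, ENNReal.toReal_natCast,
    ENNReal.toReal_ofReal (by positivity)] at h3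

/-- The chord with a sharp end meets the neighbourhood in a segment of length `t`. -/
theorem fiber_ge (D : Dir) {P : Finset E} {t : ℝ} (ht1 : t ≤ 1) {z p : E} {σ s₀ : ℝ}
    (hσ : σ = 1 ∨ σ = -1) (hp : p = z + s₀ • D.u)
    (hK : ∀ s : ℝ, 0 ≤ s → s ≤ 1 → p - (σ * s) • D.u ∈ K) {q : E} (hq : q ∈ P)
    (hd : dist p q < t) :
    ENNReal.ofReal t ≤ volume {s : ℝ | D.ℓ (D.φ z) + s • D.u ∈ K ∩ nb P (2 * t)} := by
  obtain ⟨s₁, hs₁⟩ := D.dec z
  have hσa : |σ| = 1 := by rcases hσ with rfl | rfl <;> simp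
  have hmem : ∀ s : ℝ, 0 ≤ s → s ≤ t →
      D.ℓ (D.φ z) + (s₁ + s₀ - σ * s) • D.u ∈ K ∩ nb P (2 * t) := by
    intro s h0 h1
    have e : D.ℓ (D.φ z) + (s₁ + s₀ - σ * s) • D.u = p - (σ * s) • D.u := by
      rw [eq_sub_of_add_eq hs₁.symm, hp]
      module
    rw [e]
    refine ⟨hK s h0 (h1.trans ht1), ?_⟩
    refine mem_iUnion₂.2 ⟨q, hq, ?_⟩
    rw [mem_closedBall]
    have h2 : dist (p - (σ * s) • D.u) p = s := by
      rw [dist_eq_norm, show p - (σ * s) • D.u - p = -((σ * s) • D.u) by abel, norm_neg, norm_smul,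
        D.norm_u, mul_one, Real.norm_eq_abs, abs_mul, hσa, one_mul, abs_of_nonneg h0]
    linarith [dist_triangle (p - (σ * s) • D.u) p q]
  rcases hσ with rfl | rfl
  · refine le_trans (le_of_eq ?_) (measure_mono (s := Icc (s₁ + s₀ - t) (s₁ + s₀)) ?_)
    · rw [Real.volume_Icc]
      congr 1
      ring
    · intro s hs
      have h := hmem (s₁ + s₀ - s) (by linarith [hs.2]) (by linarith [hs.1])
      rwa [show s₁ + s₀ - 1 * (s₁ + s₀ - s) = s by ring] at h
  · refine le_trans (le_of_eq ?_) (measure_mono (s := Icc (s₁ + s₀) (s₁ + s₀ + t)) ?_)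
    · rw [Real.volume_Icc]
      congr 1
      ring
    · intro s hs
      have h := hmem (s - (s₁ + s₀)) (by linarith [hs.1]) (by linarith [hs.2])
      rwa [show s₁ + s₀ - -1 * (s - (s₁ + s₀)) = s by ring] at h

/-- The volume of a covered set. -/
theorem cov_le {m : ℕ} {C : Fin m → Set E} {X : Set E} (hX : volume X ≠ ∞) (h : X ⊆ ⋃ i, C i) :
    (volume X).toReal ≤ ∑ i, (volume (X ∩ C i)).toReal := by
  have h0 : ∀ i ∈ (Finset.univ : Finset (Fin m)), volume (X ∩ C i) ≠ ∞ := fun i _ =>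
    ne_top_of_le_ne_top hX (measure_mono inter_subset_left)
  have h1 : volume X ≤ ∑ i, volume (X ∩ C i) := by
    calc volume X = volume (⋃ i, X ∩ C i) := by rw [← inter_iUnion, inter_eq_left.2 h]
      _ ≤ _ := measure_iUnion_fintype_le _ _
  have h2 := ENNReal.toReal_mono (ENNReal.sum_ne_top.2 h0) h1
  rwa [ENNReal.toReal_sum h0] at h2

/-- The part of the base where the chords are long and meet the small ball. -/
def good (η : ℝ) (D : Dir) (K : Set E) (B : Set (ℝ × ℝ)) : Set (ℝ × ℝ) :=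
  (B ∩ D.φ '' closedBall (0 : E) (1 / 2)) \ bad η D K B

theorem good_sub (η : ℝ) (D : Dir) (K : Set E) (B : Set (ℝ × ℝ)) : good η D K B ⊆ B :=
  sdiff_subset.trans inter_subset_left

theorem meas_good (hB : Body C₀ K) (η : ℝ) (D : Dir) {B : Set (ℝ × ℝ)} (hm : MeasurableSet B) :
    MeasurableSet (good η D K B) :=
  (hm.inter ((isCompact_closedBall _ _).image D.φ.continuous).measurableSet).diff
    (meas_bad hB η D hm)

theorem ball_le (D : Dir) {η : ℝ} {B : Set (ℝ × ℝ)} (hm : MeasurableSet B)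
    (hf : volume B ≠ ∞) :
    (volume (closedBall (0 : E) (1 / 2) ∩ D.φ ⁻¹' B)).toReal ≤
      D.c * (volume (good η D K B)).toReal + D.c * (volume (bad η D K B)).toReal := by
  refine (vol_ball D hm hf).trans ?_
  rw [← mul_add]
  refine mul_le_mul_of_nonneg_left ?_ D.c_pos.le
  have h1 : volume (good η D K B) ≠ ∞ := ne_top_of_le_ne_top hf (measure_mono (good_sub _ _ _ _))
  have h2 : volume (bad η D K B) ≠ ∞ := ne_top_of_le_ne_top hf (measure_mono (bad_sub _ _ _ _))
  rw [← ENNReal.toReal_add h1 h2]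
  refine ENNReal.toReal_mono (ENNReal.add_ne_top.2 ⟨h1, h2⟩) ?_
  refine (measure_mono ?_).trans (measure_union_le _ _)
  intro y hy
  by_cases hb : y ∈ bad η D K B
  · exact Or.inr hb
  · exact Or.inl ⟨hy, hb⟩

/-- The inequality for one cylinder and the neighbourhood `N` of the sharp points. -/
theorem piece (hB : Body C₀ K) (D : Dir) {B : Set (ℝ × ℝ)} (hm : MeasurableSet B)
    {N : Set E} (hNm : MeasurableSet N) {η t : ℝ} (ht : 0 ≤ t)
    (hN : ∀ z : E, ‖z‖ ≤ 1 / 2 → (3 - η) * Vl K ≤ D.c * Ar D K * fl D K (D.φ z) →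
      ENNReal.ofReal t ≤ volume {s : ℝ | D.ℓ (D.φ z) + s • D.u ∈ K ∩ N}) :
    D.c * (t * (volume (good η D K B)).toReal) ≤
      (volume (K ∩ D.φ ⁻¹' B)).toReal - (volume ((K \ N) ∩ D.φ ⁻¹' B)).toReal := by
  have hKm := hB.cpt.measurableSet
  have hKf : volume K ≠ ∞ := H713.vol_fin hB
  have h1 := vol_ge D (X := K ∩ N) (hKm.inter hNm)
    (ne_top_of_le_ne_top hKf (measure_mono inter_subset_left)) hm (meas_good hB η D hm)
    (good_sub η D K B) ht (by
      rintro y ⟨⟨hyB, z, hz, rfl⟩, hyb⟩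
      refine hN z (mem_closedBall_zero_iff.1 hz) ?_
      by_contra hcon
      exact hyb ⟨hyB, not_le.1 hcon⟩)
  have h2 : (volume (K ∩ D.φ ⁻¹' B)).toReal =
      (volume (K ∩ N ∩ D.φ ⁻¹' B)).toReal + (volume ((K \ N) ∩ D.φ ⁻¹' B)).toReal := by
    have ha : volume (K ∩ N ∩ D.φ ⁻¹' B) ≠ ∞ :=
      ne_top_of_le_ne_top hKf (measure_mono (inter_subset_left.trans inter_subset_left))
    have hb : volume ((K \ N) ∩ D.φ ⁻¹' B) ≠ ∞ :=
      ne_top_of_le_ne_top hKf (measure_mono (inter_subset_left.trans sdiff_subset))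
    rw [← ENNReal.toReal_add ha hb, ← measure_inter_add_sdiff (K ∩ D.φ ⁻¹' B) hNm]
    congr 3
    · ext x; simp only [mem_inter_iff]; tauto
    · ext x; simp only [mem_inter_iff, mem_sdiff]; tauto
  linarith

/-- **The main inequality.** -/
theorem core_ineq (hrs : P_rs) (hB : Body C₀ K) {m : ℕ} {D : Fin m → Dir}
    {B : Fin m → Set (ℝ × ℝ)} (hm : ∀ i, MeasurableSet (B i)) (hf : ∀ i, volume (B i) ≠ ∞)
    (hcov : K ⊆ ⋃ i, (D i).φ ⁻¹' B i) {N : Set E} (hNm : MeasurableSet N) {η t : ℝ}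
    (hη : 0 < η) (hη3 : η ≤ 3) (ht : 0 ≤ t)
    (hN : ∀ i, ∀ z : E, ‖z‖ ≤ 1 / 2 →
      (3 - η) * Vl K ≤ (D i).c * Ar (D i) K * fl (D i) K ((D i).φ z) →
      ENNReal.ofReal t ≤ volume {s : ℝ | (D i).ℓ ((D i).φ z) + s • (D i).u ∈ K ∩ N}) :
    t * ((volume (closedBall (0 : E) (1 / 2))).toReal -
        3 * Vl K * (3 * (∑ i, (volume (B i)).toReal / Ar (D i) K) - 1) / η) ≤
      Vl K * (3 * (∑ i, (volume (B i)).toReal / Ar (D i) K) - 1) +
        (volume (K ∩ N)).toReal := by
  have hKm := hB.cpt.measurableSet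
  have hKf : volume K ≠ ∞ := H713.vol_fin hB
  have hV := vl_pos hB
  set R := ∑ i, (volume (B i)).toReal / Ar (D i) K with hR
  -- the covering
  have s1 : Vl K ≤ ∑ i, (volume (K ∩ (D i).φ ⁻¹' B i)).toReal := cov_le hKf hcov
  -- the volumes of the cylinders
  have s2 : ∑ i, (volume (K ∩ (D i).φ ⁻¹' B i)).toReal ≤
      3 * Vl K * R - η * Vl K * ∑ i, (volume (bad η (D i) K (B i))).toReal / Ar (D i) K := by
    rw [hR, Finset.mul_sum, Finset.mul_sum, ← Finset.sum_sub_distrib]
    exact Finset.sum_le_sum fun i _ => vol_cyl hrs hB (D i) hη3 (hm i) (hf i)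
  have s0 : 0 ≤ ∑ i, (volume (bad η (D i) K (B i))).toReal / Ar (D i) K :=
    Finset.sum_nonneg fun i _ => div_nonneg ENNReal.toReal_nonneg ENNReal.toReal_nonneg
  set S := ∑ i, (volume (bad η (D i) K (B i))).toReal / Ar (D i) K with hS
  -- the bad parts
  have s3 : ∑ i, (D i).c * (volume (bad η (D i) K (B i))).toReal ≤ 3 * Vl K * S := by
    rw [hS, Finset.mul_sum]
    refine Finset.sum_le_sum fun i _ => ?_
    have hA := ar_pos hB (D i)
    have h1 := c_ar_le hrs hB (D i)
    have h2 : (0 : ℝ) ≤ (volume (bad η (D i) K (B i))).toReal / Ar (D i) K :=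
      div_nonneg ENNReal.toReal_nonneg hA.le
    calc (D i).c * (volume (bad η (D i) K (B i))).toReal =
        (D i).c * Ar (D i) K * ((volume (bad η (D i) K (B i))).toReal / Ar (D i) K) := by
          field_simp
      _ ≤ _ := mul_le_mul_of_nonneg_right h1 h2
  -- the small ball
  have hcov2 : closedBall (0 : E) (1 / 2) ⊆ ⋃ i, (D i).φ ⁻¹' B i :=
    ((closedBall_subset_closedBall (by norm_num)).trans hB.ball).trans hcov
  have s4 : (volume (closedBall (0 : E) (1 / 2))).toReal ≤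
      ∑ i, (D i).c * (volume (good η (D i) K (B i))).toReal +
        ∑ i, (D i).c * (volume (bad η (D i) K (B i))).toReal := by
    rw [← Finset.sum_add_distrib]
    refine (cov_le measure_closedBall_lt_top.ne hcov2).trans ?_
    exact Finset.sum_le_sum fun i _ => ball_le (D i) (hm i) (hf i)
  -- the neighbourhood
  have s5 : t * ∑ i, (D i).c * (volume (good η (D i) K (B i))).toReal ≤
      ∑ i, (volume (K ∩ (D i).φ ⁻¹' B i)).toReal -
        ∑ i, (volume ((K \ N) ∩ (D i).φ ⁻¹' B i)).toReal := by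
    rw [Finset.mul_sum, ← Finset.sum_sub_distrib]
    refine Finset.sum_le_sum fun i _ => ?_
    have := piece hB (D i) (hm i) hNm (η := η) ht (hN i)
    linarith
  have s6 : (volume (K \ N)).toReal ≤ ∑ i, (volume ((K \ N) ∩ (D i).φ ⁻¹' B i)).toReal :=
    cov_le (ne_top_of_le_ne_top hKf (measure_mono sdiff_subset)) (sdiff_subset.trans hcov)
  have s7 : Vl K = (volume (K ∩ N)).toReal + (volume (K \ N)).toReal := by
    rw [← ENNReal.toReal_add (ne_top_of_le_ne_top hKf (measure_mono inter_subset_left))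
      (ne_top_of_le_ne_top hKf (measure_mono sdiff_subset)), measure_inter_add_sdiff K hNm]
    rfl
  -- the conclusion
  have s8 : S ≤ (3 * R - 1) / η := by
    rw [le_div_iff₀ hη]
    have h1 : Vl K * (S * η) ≤ Vl K * (3 * R - 1) := by nlinarith
    exact le_of_mul_le_mul_left h1 hV
  have s9 : 3 * Vl K * S ≤ 3 * Vl K * (3 * R - 1) / η := by
    rw [mul_div_assoc]
    exact mul_le_mul_of_nonneg_left s8 (by positivity)
  have s10 : 0 ≤ η * Vl K * S := by positivity
  have s11 : t * ((volume (closedBall (0 : E) (1 / 2))).toReal -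
      3 * Vl K * (3 * R - 1) / η) ≤
      t * ∑ i, (D i).c * (volume (good η (D i) K (B i))).toReal :=
    mul_le_mul_of_nonneg_left (by linarith) ht
  linarith

/-- The inequality of the constants. -/
theorem consts {t v W V δ η M n x b : ℝ} (ht : 0 < t) (hv : 0 < v) (hV : 0 < V)
    (hVW : V ≤ W) (hη : 0 < η) (ht1 : t ≤ 1) (htM : 128 * M * t ≤ 1)
    (hδ : δ = t * v / (32 * W * (9 / η + 3)))
    (hx : 3 * x - 1 < 3 * δ) (hn : n * t ≤ M) (hb : b ≤ n * ((2 * t) ^ 3 * v))
    (h : t * (v / 8 - 3 * V * (3 * x - 1) / η) ≤ V * (3 * x - 1) + b) : False := by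
  have hW : 0 < W := hV.trans_le hVW
  have hδ0 : 0 < δ := by rw [hδ]; positivity
  have h1 : V * (3 * x - 1) ≤ 3 * (W * δ) := by
    have : V * (3 * x - 1) ≤ V * (3 * δ) := mul_le_mul_of_nonneg_left hx.le hV.le
    have : V * (3 * δ) ≤ W * (3 * δ) := mul_le_mul_of_nonneg_right hVW (by positivity)
    linarith
  have h2 : 3 * V * (3 * x - 1) / η ≤ 9 * (W * δ) / η := by
    rw [div_le_div_iff_of_pos_right hη]
    linarith
  have h3 : b ≤ t * v / 16 := by
    have e1 : n * ((2 * t) ^ 3 * v) = n * t * (8 * t ^ 2 * v) := by ring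
    have e2 : n * t * (8 * t ^ 2 * v) ≤ M * (8 * t ^ 2 * v) :=
      mul_le_mul_of_nonneg_right hn (by positivity)
    have e3 : M * (8 * t ^ 2 * v) = 128 * M * t * (t * v / 16) := by ring
    have e4 : 128 * M * t * (t * v / 16) ≤ 1 * (t * v / 16) :=
      mul_le_mul_of_nonneg_right htM (by positivity)
    linarith
  have h4 : t * (v / 8 - 9 * (W * δ) / η) ≤ t * (v / 8 - 3 * V * (3 * x - 1) / η) :=
    mul_le_mul_of_nonneg_left (by linarith) ht.le
  have h5 : t * (9 * (W * δ) / η) ≤ 1 * (9 * (W * δ) / η) :=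
    mul_le_mul_of_nonneg_right ht1 (by positivity)
  have h6 : W * δ * (9 / η + 3) = t * v / 32 := by
    rw [hδ]
    field_simp
  have h7 : W * δ * (9 / η + 3) = 9 * (W * δ) / η + 3 * (W * δ) := by ring
  have h8 : 0 < t * v := mul_pos ht hv
  nlinarith

/-- The volume of the ball of radius `1 / 2`. -/
theorem vol_half : (volume (closedBall (0 : E) (1 / 2))).toReal =
    (volume (ball (0 : E) 1)).toReal / 8 := by
  have hfin : Module.finrank ℝ E = 3 := by simp
  rw [Measure.addHaar_closedBall _ _ (by norm_num), hfin, ENNReal.toReal_mul,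
    ENNReal.toReal_ofReal (by norm_num)]
  ring

/-- **Block F.** -/
theorem core_of (hrs : P_rs) (hsh : P_sharp) (hpk : P_pack) : P_core := by
  intro C₀ hC₀
  obtain ⟨C₁, c₁, hC₁, hc₁, hsh⟩ := hsh C₀ hC₀
  obtain ⟨M, hM, hpk⟩ := hpk C₀ C₁ c₁ hC₀ hC₁ hc₁
  set t : ℝ := min 1 (1 / (128 * M)) with ht
  have ht0 : 0 < t := lt_min one_pos (by positivity)
  have ht1 : t ≤ 1 := min_le_left _ _
  have htM : 128 * M * t ≤ 1 := by
    have : t ≤ 1 / (128 * M) := min_le_right _ _
    rw [le_div_iff₀ (by positivity)] at this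
    linarith
  obtain ⟨η₀, hη₀, hsh⟩ := hsh (t ^ 2 / 32) (by positivity)
  set η : ℝ := min η₀ 3 with hη
  have hη0 : 0 < η := lt_min hη₀ (by norm_num)
  set v : ℝ := (volume (ball (0 : E) 1)).toReal with hv
  have hv0 : 0 < v := ENNReal.toReal_pos (measure_ball_pos volume (0 : E) one_pos).ne'
    measure_ball_lt_top.ne
  set W : ℝ := (volume (closedBall (0 : E) C₀)).toReal with hW
  have hW0 : 0 < W := ENNReal.toReal_pos (measure_closedBall_pos volume (0 : E)
    (by linarith)).ne' measure_closedBall_lt_top.ne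
  refine ⟨t * v / (32 * W * (9 / η + 3)), by positivity, ?_⟩
  intro K hB m D B _ hfin hcov
  by_contra hcon
  have hV := vl_pos hB
  have hVW : Vl K ≤ W := ENNReal.toReal_mono measure_closedBall_lt_top.ne (measure_mono hB.bdd)
  obtain ⟨P, hPc, hPm⟩ := exists_max (S := {p | p ∈ K ∧ Sharp K C₁ c₁ (t ^ 2 / 32) p}) ht0
    (hpk t ht0 ht1 K hB.bdd)
  have hmt : ∀ i, volume (toMeasurable volume (B i)) = volume (B i) := fun i =>
    measure_toMeasurable (B i)
  have key := core_ineq hrs hB (D := D) (B := fun i => toMeasurable volume (B i))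
    (fun i => measurableSet_toMeasurable _ _) (fun i => by rw [hmt i]; exact hfin i)
    (hcov.trans (iUnion_mono fun i x hx => subset_toMeasurable volume (B i) hx))
    (N := nb P (2 * t)) (meas_nb _ _) (η := η) (t := t) hη0 (min_le_right _ _) ht0.le (by
      intro i z hz hle
      have hle' : (3 - η₀) * Vl K ≤ (D i).c * Ar (D i) K * fl (D i) K ((D i).φ z) := by
        refine le_trans (mul_le_mul_of_nonneg_right ?_ hV.le) hle
        linarith [min_le_left η₀ 3]
      obtain ⟨p, σ, hσ, ⟨s₀, hs₀⟩, hseg, hSh⟩ := hsh K hB (D i) z hz hle'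
      have hpK : p ∈ K := by
        have := hseg 0 le_rfl zero_le_one
        rwa [mul_zero, zero_smul, sub_zero] at this
      obtain ⟨q, hq, hd⟩ := hPm p ⟨hpK, hSh⟩
      exact fiber_ge (D i) ht1 hσ hs₀ hseg hq hd)
  simp only [hmt] at key
  rw [vol_half] at key
  exact consts ht0 hv0 hV hVW hη0 ht1 htM rfl (by linarith [not_le.1 hcon]) hPc
    (vol_nb P (by positivity)) key

end Vale.Agent.P243.LB
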