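import Mathlib

/-!
# P243, the lower bound `r₃ > 1/3`: interface

`Dir`: a direction `u` of cylinders with a projection `φ` along it; `Body C₀ K`: `K` is compact,
convex, contains the unit ball and lies in the ball of radius `C₀`. `Sharp`: two approximate normals
which are apart.
-/

set_option autoImplicit false

namespace Vale.Agent.P243.LB

open MeasureTheory Set Metric
open scoped RealInnerProductSpace ENNReal

abbrev E : Type := EuclideanSpace ℝ (Fin 3)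

/-- A direction `u` (unit vector) with a linear projection `φ` along `u` onto the plane, a linear
section `ℓ` of `φ` and the Jacobian `c` of Fubini's theorem. -/
structure Dir where
  u : E
  φ : E →L[ℝ] ℝ × ℝ
  ℓ : ℝ × ℝ →L[ℝ] E
  c : ℝ
  norm_u : ‖u‖ = 1
  φu : φ u = 0
  φℓ : ∀ y, φ (ℓ y) = y
  dec : ∀ x : E, ∃ s : ℝ, x = ℓ (φ x) + s • u
  c_pos : 0 < c
  fub : ∀ X : Set E, MeasurableSet X →
    volume X = ENNReal.ofReal c * ∫⁻ y : ℝ × ℝ, volume {s : ℝ | ℓ y + s • u ∈ X}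

/-- A convex body between the balls of radius `1` and `C₀`. -/
structure Body (C₀ : ℝ) (K : Set E) : Prop where
  cpt : IsCompact K
  cvx : Convex ℝ K
  ball : closedBall 0 1 ⊆ K
  bdd : K ⊆ closedBall 0 C₀

/-- The length of the chord of `K` over the point `y` of the plane. -/
noncomputable def fl (D : Dir) (K : Set E) (y : ℝ × ℝ) : ℝ :=
  (volume {s : ℝ | D.ℓ y + s • D.u ∈ K}).toReal

/-- The volume. -/
noncomputable def Vl (K : Set E) : ℝ := (volume K).toReal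

/-- The area of the shadow. -/
noncomputable def Ar (D : Dir) (K : Set E) : ℝ := (volume (D.φ '' K)).toReal

/-- A sharp point: two approximate outer normals `a`, `b` at a distance at least `c₁`. -/
def Sharp (K : Set E) (C₁ c₁ τ : ℝ) (p : E) : Prop :=
  ∃ a b w : E, ‖w‖ = 1 ∧ ⟪a, w⟫ = 1 ∧ ⟪b, w⟫ = 1 ∧ ‖a‖ ≤ C₁ ∧ ‖b‖ ≤ C₁ ∧ c₁ ≤ ‖a - b‖ ∧
    (∀ x ∈ K, ⟪a, x - p⟫ ≤ τ) ∧ ∀ x ∈ K, ⟪b, x - p⟫ ≤ τ

/-! ### The blocks -/

/-- **Block A**: normalisation. -/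
def P_norm : Prop := ∃ C₀ : ℝ, 1 ≤ C₀ ∧ ∀ K : Set E, IsCompact K → Convex ℝ K →
  (interior K).Nonempty → ∃ (L : E ≃L[ℝ] E) (v : E), Body C₀ {x | L x + v ∈ K}

/-- **Block B**: every surjective linear map is the projection of a direction. -/
def P_dir : Prop := ∀ φ : E →L[ℝ] ℝ × ℝ, Function.Surjective φ → ∃ D : Dir, D.φ = φ

/-- **Block C1**: the inequality `A m ≤ 3 V`. -/
def P_rs : Prop := ∀ (C₀ : ℝ) (K : Set E), Body C₀ K → ∀ (D : Dir) (y : ℝ × ℝ),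
  D.c * Ar D K * fl D K y ≤ 3 * Vl K

/-- **Block C2**: in the case of near equality the length of the chords is nearly linear on the rays
from the point of the shadow. -/
def P_tent : Prop := ∀ C₀ κ : ℝ, 1 ≤ C₀ → 0 < κ → ∃ η : ℝ, 0 < η ∧ ∀ K : Set E, Body C₀ K →
  ∀ (D : Dir) (z : E), ‖z‖ ≤ 1 / 2 → (3 - η) * Vl K ≤ D.c * Ar D K * fl D K (D.φ z) →
  ∀ w : E, D.φ (z + w) ∈ D.φ '' K → (∀ r : ℝ, 1 < r → D.φ (z + r • w) ∉ D.φ '' K) →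
  ∀ s : ℝ, 0 ≤ s → s ≤ 1 → fl D K (D.φ (z + s • w)) ≤ fl D K (D.φ z) * (1 - s + κ)

/-- **Block D**: a line of near equality through the ball of radius `1 / 2` has a sharp end `p`. -/
def P_sharp : Prop := ∀ C₀ : ℝ, 1 ≤ C₀ → ∃ C₁ c₁ : ℝ, 0 < C₁ ∧ 0 < c₁ ∧ ∀ τ : ℝ, 0 < τ →
  ∃ η : ℝ, 0 < η ∧ ∀ K : Set E, Body C₀ K → ∀ (D : Dir) (z : E), ‖z‖ ≤ 1 / 2 →
  (3 - η) * Vl K ≤ D.c * Ar D K * fl D K (D.φ z) →
  ∃ (p : E) (σ : ℝ), (σ = 1 ∨ σ = -1) ∧ (∃ s : ℝ, p = z + s • D.u) ∧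
    (∀ s : ℝ, 0 ≤ s → s ≤ 1 → p - (σ * s) • D.u ∈ K) ∧ Sharp K C₁ c₁ τ p

/-- **Block E**: separated sharp points are few. -/
def P_pack : Prop := ∀ C₀ C₁ c₁ : ℝ, 1 ≤ C₀ → 0 < C₁ → 0 < c₁ → ∃ M : ℝ, 0 < M ∧
  ∀ t : ℝ, 0 < t → t ≤ 1 → ∀ K : Set E, K ⊆ closedBall 0 C₀ → ∀ P : Finset E,
  (∀ p ∈ P, p ∈ K ∧ Sharp K C₁ c₁ (t ^ 2 / 32) p) →
  (∀ p ∈ P, ∀ q ∈ P, p ≠ q → t ≤ dist p q) → (P.card : ℝ) * t ≤ M

/-- **Block F**: the lower bound for normalised bodies. -/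
def P_core : Prop := ∀ C₀ : ℝ, 1 ≤ C₀ → ∃ δ : ℝ, 0 < δ ∧ ∀ K : Set E, Body C₀ K →
  ∀ (m : ℕ) (D : Fin m → Dir) (B : Fin m → Set (ℝ × ℝ)),
  (∀ i, NullMeasurableSet (B i) volume) → (∀ i, volume (B i) ≠ ∞) →
  K ⊆ ⋃ i, {x | (D i).φ x ∈ B i} →
  1 / 3 + δ ≤ ∑ i, (volume (B i)).toReal / Ar (D i) K

end Vale.Agent.P243.LB
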