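import Vale.Agent.P243.LB.Defs

/-!
# P243, the lower bound `r₃ > 1/3`: the second normal at a sharp end
-/

set_option autoImplicit false
set_option linter.unusedVariables false

namespace Vale.Agent.P243.LB

open MeasureTheory Set Metric
open scoped RealInnerProductSpace ENNReal

/-- A vector representing a functional, normalised on `u`. -/
theorem exists_rep {u : E} {f : StrongDual ℝ E} (h : 0 < f u) :
    ∃ a : E, ⟪a, u⟫ = 1 ∧ ∀ x, ⟪a, x⟫ = f x / f u := by
  refine ⟨(f u)⁻¹ • (InnerProductSpace.toDual ℝ E).symm f, ?_, fun x => ?_⟩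
  · rw [real_inner_smul_left, InnerProductSpace.toDual_symm_apply, inv_mul_cancel₀ h.ne']
  · rw [real_inner_smul_left, InnerProductSpace.toDual_symm_apply, div_eq_inv_mul]

/-- **The first normal.** -/
theorem first_normal {K : Set E} (hK : IsCompact K) (hc : Convex ℝ K) (hne : K.Nonempty) {u : E}
    {s : ℝ} (hs : 0 < s) (hd : ∀ x ∈ K, x + s • u ∉ K) :
    ∃ a : E, ⟪a, u⟫ = 1 ∧ ∀ x ∈ K, ∀ x' ∈ K, ⟪a, x⟫ - ⟪a, x'⟫ ≤ s := by
  have hK2 : IsCompact ((fun x => x + s • u) '' K) := hK.image (by fun_prop)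
  have hc2 : Convex ℝ ((fun x => x + s • u) '' K) := by
    have := hc.translate (s • u)
    rwa [show (fun x : E => x + s • u) = (fun z => s • u + z) from funext fun x => add_comm _ _]
  have hdis : Disjoint K ((fun x => x + s • u) '' K) := by
    rw [Set.disjoint_left]
    rintro x hx ⟨x', hx', rfl⟩
    exact hd x' hx' hx
  obtain ⟨f, b, c, h1, h2, h3⟩ := geometric_hahn_banach_compact_closed hc hK hc2 hK2.isClosed hdis
  have h4 : ∀ x ∈ K, ∀ x' ∈ K, f x < f x' + s * f u := by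
    intro x hx x' hx'
    have := h3 _ ⟨x', hx', rfl⟩
    simp only [map_add, map_smul, smul_eq_mul] at this
    linarith [h1 x hx]
  obtain ⟨x₀, hx₀⟩ := hne
  have h5 : 0 < f u := by
    have := h4 x₀ hx₀ x₀ hx₀
    by_contra hcon
    nlinarith
  obtain ⟨a, h6, h7⟩ := exists_rep h5
  refine ⟨a, h6, fun x hx x' hx' => ?_⟩
  rw [h7, h7, ← sub_div, div_le_iff₀ h5]
  linarith [h4 x hx x' hx']

/-- **The second normal.** -/
theorem second_normal {K : Set E} (hK : IsCompact K) (hc : Convex ℝ K) {u P : E} (hP : P ∈ K)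
    {ε : ℝ} (hε : 0 < ε) (hd : P + ε • u ∉ K) :
    ∃ b : E, ⟪b, u⟫ = 1 ∧ ∀ x ∈ K, ⟪b, x⟫ ≤ ⟪b, P⟫ + ε := by
  obtain ⟨f, c, h1, h2⟩ := geometric_hahn_banach_closed_point hc hK.isClosed hd
  have h3 : ∀ x ∈ K, f x < f P + ε * f u := by
    intro x hx
    simp only [map_add, map_smul, smul_eq_mul] at h2
    linarith [h1 x hx]
  have h5 : 0 < f u := by
    have := h3 P hP
    by_contra hcon
    nlinarith
  obtain ⟨b, h6, h7⟩ := exists_rep h5
  refine ⟨b, h6, fun x hx => ?_⟩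
  rw [h7, h7, div_add' _ _ _ h5.ne', div_le_div_iff_of_pos_right h5]
  exact (h3 x hx).le

/-- The norm from the values on a ball. -/
theorem norm_le_of_ball {b z : E} {r M : ℝ} (hr : 0 < r)
    (h : ∀ x : E, ‖x - z‖ ≤ r → ⟪b, x - z⟫ ≤ M) : r * ‖b‖ ≤ M := by
  rcases eq_or_ne b 0 with rfl | hb
  · have := h z (by simpa using hr.le)
    simpa using this
  have hb' : 0 < ‖b‖ := norm_pos_iff.2 hb
  have h1 := h (z + (r / ‖b‖) • b) (by
    rw [add_sub_cancel_left, norm_smul, Real.norm_eq_abs, abs_of_pos (by positivity),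
      div_mul_cancel₀ _ hb'.ne'])
  rw [add_sub_cancel_left, real_inner_smul_right, real_inner_self_eq_norm_sq] at h1
  have : r / ‖b‖ * ‖b‖ ^ 2 = r * ‖b‖ := by field_simp
  linarith

/-- **The key lemma**: the second normal at the end `p` of a chord. -/
theorem key {C₀ : ℝ} (hC : 1 ≤ C₀) {K : Set E} (hB : Body C₀ K) {u e a z : E} (hu : ‖u‖ = 1)
    (he : ‖e‖ = 1) (hz : ‖z‖ ≤ 1 / 2) {R f₀ η κ ε s β₀ β α βp αp : ℝ} (hR0 : 0 ≤ R)
    (hR : R ≤ 2 * C₀) (hf1 : 1 ≤ f₀) (hf2 : f₀ ≤ 2 * C₀) (hau : ⟪a, u⟫ = 1) (ha : ‖a‖ ≤ 2 * C₀)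
    (hη : 0 ≤ η) (hs0 : 0 < s) (hs1 : s ≤ 1) (hs2 : s * (8 * C₀) ≤ 1) (hε0 : 0 < ε)
    (hε1 : ε ≤ s / 12) (hκ : κ ≤ s / 12)
    (hap : ∀ x ∈ K, ⟪a, x - (z + β₀ • u)⟫ ≤ η * f₀)
    (hp : z + β₀ • u ∈ K) (hq : z + (β₀ - f₀) • u ∈ K)
    (hP : z + (s * R) • e + β • u ∈ K) (hPt : z + (s * R) • e + (β + ε) • u ∉ K)
    (hα : ∀ r, z + (s * R) • e + r • u ∈ K → α ≤ r) (hlen : β - α ≤ f₀ * (1 - s + κ))
    (hbp : z + R • e + αp • u ∈ K) (hαβ : αp ≤ βp)
    (hA : f₀ / 3 ≤ ⟪a, z + β₀ • u⟫ - ⟪a, z + R • e + βp • u⟫) :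
    ∃ b : E, ⟪b, u⟫ = 1 ∧ ‖b‖ ≤ 8 * C₀ + 4 ∧ 1 / (12 * C₀) ≤ ‖a - b‖ ∧
      ∀ x ∈ K, ⟪b, x - (z + β₀ • u)⟫ ≤ ε + s * (2 * C₀) * (8 * C₀ + 4) + η * f₀ +
        s * (2 * C₀) * (2 * C₀) := by
  obtain ⟨b, hbu, hb⟩ := second_normal hB.cpt hB.cvx hP hε0 (u := u) (by
    rw [add_assoc, ← add_smul]; exact hPt)
  have huu : ⟪u, u⟫ = 1 := by rw [real_inner_self_eq_norm_sq, hu]; norm_num
  have hae : |⟪a, e⟫| ≤ 2 * C₀ := by
    have := abs_real_inner_le_norm a e
    rw [he, mul_one] at this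
    linarith
  -- the norm of `b`
  have hβ : β ≤ 2 * C₀ := by
    have h1 := hB.bdd hP
    rw [mem_closedBall_zero_iff] at h1
    have h2 : ‖z + (s * R) • e‖ ≤ 1 := by
      refine (norm_add_le _ _).trans ?_
      rw [norm_smul, he, mul_one, Real.norm_eq_abs, abs_of_nonneg (by positivity)]
      have : s * R ≤ s * (2 * C₀) := mul_le_mul_of_nonneg_left hR hs0.le
      linarith
    have h3 : ‖β • u‖ ≤ C₀ + 1 := by
      calc ‖β • u‖ = ‖(z + (s * R) • e + β • u) - (z + (s * R) • e)‖ := by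
            rw [add_sub_cancel_left]
        _ ≤ _ := norm_sub_le _ _
        _ ≤ C₀ + 1 := by linarith
    rw [norm_smul, hu, mul_one, Real.norm_eq_abs] at h3
    linarith [le_abs_self β]
  have hnb : ‖b‖ ≤ 8 * C₀ + 4 := by
    have h1 := norm_le_of_ball (b := b) (z := z + (s * R) • e) (r := 1 / 4) (M := β + ε)
      (by norm_num) (by
        intro x hx
        have hxK : x ∈ K := by
          refine hB.ball ?_
          rw [mem_closedBall_zero_iff]
          calc ‖x‖ = ‖(x - (z + (s * R) • e)) + (z + (s * R) • e)‖ := by rw [sub_add_cancel]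
            _ ≤ ‖x - (z + (s * R) • e)‖ + (‖z‖ + ‖(s * R) • e‖) :=
                (norm_add_le _ _).trans (add_le_add le_rfl (norm_add_le _ _))
            _ ≤ 1 := by
                rw [norm_smul (s * R) e, he, mul_one, Real.norm_eq_abs,
                  abs_of_nonneg (by positivity)]
                have : s * R ≤ s * (2 * C₀) := mul_le_mul_of_nonneg_left hR hs0.le
                linarith
        have h2 := hb x hxK
        rw [inner_add_right, real_inner_smul_right, hbu] at h2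
        rw [inner_sub_right]
        linarith)
    linarith
  have hbe : |⟪b, e⟫| ≤ 8 * C₀ + 4 := by
    have := abs_real_inner_le_norm b e
    rw [he, mul_one] at this
    linarith
  -- the height of the point over `x_s`
  have hββ : β - β₀ ≤ η * f₀ + s * (2 * C₀) * (2 * C₀) := by
    have h1 := hap _ hP
    have e1 : z + (s * R) • e + β • u - (z + β₀ • u) = (s * R) • e + (β - β₀) • u := by
      rw [sub_smul]; abel
    rw [e1, inner_add_right, real_inner_smul_right, real_inner_smul_right, hau, mul_one] at h1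
    have h2 : -(s * R * ⟪a, e⟫) ≤ s * (2 * C₀) * (2 * C₀) := by
      have h3 : -(s * R * ⟪a, e⟫) ≤ s * R * |⟪a, e⟫| := by
        have := neg_abs_le ⟪a, e⟫
        nlinarith [mul_nonneg hs0.le hR0]
      refine h3.trans ?_
      exact mul_le_mul (mul_le_mul_of_nonneg_left hR hs0.le) hae (abs_nonneg _) (by positivity)
    linarith
  refine ⟨b, hbu, hnb, ?_, ?_⟩
  · -- the distance of the normals
    have h1 : α ≤ (1 - s) * (β₀ - f₀) + s * αp := by
      refine hα _ ?_
      have h2 := hB.cvx hq hbp (show (0 : ℝ) ≤ 1 - s by linarith) hs0.le (by ring)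
      convert h2 using 1
      module
    have h2 : ⟪a, z + β₀ • u⟫ = ⟪a, z⟫ + β₀ := by
      rw [inner_add_right, real_inner_smul_right, hau, mul_one]
    have h3 : ⟪a, z + R • e + βp • u⟫ = ⟪a, z⟫ + R * ⟪a, e⟫ + βp := by
      rw [inner_add_right, inner_add_right, real_inner_smul_right, real_inner_smul_right, hau,
        mul_one]
    have h4 := hb _ hp
    rw [inner_add_right, inner_add_right, inner_add_right, real_inner_smul_right,
      real_inner_smul_right, real_inner_smul_right, hbu, mul_one, mul_one] at h4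
    rw [h2, h3] at hA
    have h5 : s * f₀ / 6 ≤ s * R * -⟪a - b, e⟫ := by
      rw [inner_sub_left]
      nlinarith [mul_le_mul_of_nonneg_left hA hs0.le, mul_le_mul_of_nonneg_left hαβ hs0.le,
        mul_le_mul_of_nonneg_left hκ (by linarith : (0 : ℝ) ≤ f₀), mul_le_mul_of_nonneg_left hf1 hs0.le]
    have h6 : s * R * -⟪a - b, e⟫ ≤ s * (2 * C₀) * ‖a - b‖ := by
      have h7 : -⟪a - b, e⟫ ≤ ‖a - b‖ := by
        have := abs_real_inner_le_norm (a - b) e
        rw [he, mul_one] at this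
        exact (neg_le_abs _).trans this
      calc s * R * -⟪a - b, e⟫ ≤ s * R * ‖a - b‖ :=
            mul_le_mul_of_nonneg_left h7 (mul_nonneg hs0.le hR0)
        _ ≤ _ := mul_le_mul_of_nonneg_right (mul_le_mul_of_nonneg_left hR hs0.le) (norm_nonneg _)
    have h8 : s * 1 ≤ s * (12 * C₀ * ‖a - b‖) := by
      have := mul_le_mul_of_nonneg_left hf1 hs0.le
      nlinarith
    have h9 := le_of_mul_le_mul_left h8 hs0
    rw [div_le_iff₀ (by positivity)]
    linarith
  · intro x hx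
    have h1 := hb x hx
    have e1 : ⟪b, x - (z + β₀ • u)⟫ = ⟪b, x⟫ - ⟪b, z⟫ - β₀ := by
      rw [inner_sub_right, inner_add_right, real_inner_smul_right, hbu]
      ring
    rw [inner_add_right, inner_add_right, real_inner_smul_right, real_inner_smul_right, hbu,
      mul_one] at h1
    rw [e1]
    have h2 : s * R * ⟪b, e⟫ ≤ s * (2 * C₀) * (8 * C₀ + 4) := by
      have h3 : s * R * ⟪b, e⟫ ≤ s * R * |⟪b, e⟫| :=
        mul_le_mul_of_nonneg_left (le_abs_self _) (mul_nonneg hs0.le hR0)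
      refine h3.trans ?_
      exact mul_le_mul (mul_le_mul_of_nonneg_left hR hs0.le) hbe (abs_nonneg _) (by positivity)
    linarith

end Vale.Agent.P243.LB
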