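import Vale.Agent.P243.LB.Defs

/-!
# P243, the lower bound `r₃ > 1/3`: blocks C1 (`P_rs`) and C2 (`P_tent`)

Layer cake for the length of the chords: over `(1 - r) y₀ + r P` the chords have length at least
`(1 - r) f(y₀)`.
-/

set_option autoImplicit false

namespace Vale.Agent.P243.LB.H713

open MeasureTheory Set Metric Vale.Agent.P243.LB
open scoped RealInnerProductSpace ENNReal Pointwise

/-- The section of `K` over `y`. -/
def sec (D : Dir) (K : Set E) (y : ℝ × ℝ) : Set ℝ := {s : ℝ | D.ℓ y + s • D.u ∈ K}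

theorem fl_eq (D : Dir) (K : Set E) (y : ℝ × ℝ) : fl D K y = (volume (sec D K y)).toReal := rfl

theorem sec_bdd {C₀ : ℝ} {K : Set E} (hK : Body C₀ K) (D : Dir) (y : ℝ × ℝ) :
    Bornology.IsBounded (sec D K y) := by
  have : sec D K y ⊆ closedBall 0 (C₀ + ‖D.ℓ y‖) := by
    intro s hs
    have h1 : ‖D.ℓ y + s • D.u‖ ≤ C₀ := by
      have := hK.bdd hs
      simpa using this
    have h2 : ‖s • D.u‖ = |s| := by rw [norm_smul, D.norm_u]; simp
    have h3 : ‖s • D.u‖ ≤ ‖D.ℓ y + s • D.u‖ + ‖D.ℓ y‖ := by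
      have := norm_sub_le (D.ℓ y + s • D.u) (D.ℓ y)
      simpa using this
    simp only [mem_closedBall, dist_zero_right, Real.norm_eq_abs]
    rw [h2] at h3
    linarith
  exact (isBounded_closedBall).subset this

theorem sec_fin {C₀ : ℝ} {K : Set E} (hK : Body C₀ K) (D : Dir) (y : ℝ × ℝ) :
    volume (sec D K y) ≠ ∞ := (sec_bdd hK D y).measure_lt_top.ne

theorem fl_nonneg (D : Dir) (K : Set E) (y : ℝ × ℝ) : 0 ≤ fl D K y := ENNReal.toReal_nonneg

theorem ofReal_fl {C₀ : ℝ} {K : Set E} (hK : Body C₀ K) (D : Dir) (y : ℝ × ℝ) :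
    ENNReal.ofReal (fl D K y) = volume (sec D K y) :=
  ENNReal.ofReal_toReal (sec_fin hK D y)

theorem meas_fl {C₀ : ℝ} {K : Set E} (hK : Body C₀ K) (D : Dir) : Measurable (fl D K) := by
  have hS : MeasurableSet {p : (ℝ × ℝ) × ℝ | D.ℓ p.1 + p.2 • D.u ∈ K} := by
    have hc : Continuous fun p : (ℝ × ℝ) × ℝ => D.ℓ p.1 + p.2 • D.u := by fun_prop
    exact (hK.cpt.isClosed.preimage hc).measurableSet
  exact (measurable_measure_prodMk_left (ν := (volume : Measure ℝ)) hS).ennreal_toReal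

/-- The shadow is compact. -/
theorem sh_cpt {C₀ : ℝ} {K : Set E} (hK : Body C₀ K) (D : Dir) : IsCompact (D.φ '' K) :=
  hK.cpt.image D.φ.continuous

theorem sh_cvx {C₀ : ℝ} {K : Set E} (hK : Body C₀ K) (D : Dir) : Convex ℝ (D.φ '' K) :=
  hK.cvx.is_linear_image D.φ.toLinearMap.isLinear

theorem sh_fin {C₀ : ℝ} {K : Set E} (hK : Body C₀ K) (D : Dir) : volume (D.φ '' K) ≠ ∞ :=
  (sh_cpt hK D).measure_lt_top.ne

theorem ofReal_Ar {C₀ : ℝ} {K : Set E} (hK : Body C₀ K) (D : Dir) :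
    ENNReal.ofReal (Ar D K) = volume (D.φ '' K) := ENNReal.ofReal_toReal (sh_fin hK D)

theorem vol_fin {C₀ : ℝ} {K : Set E} (hK : Body C₀ K) : volume K ≠ ∞ :=
  hK.cpt.measure_lt_top.ne

theorem ofReal_Vl {C₀ : ℝ} {K : Set E} (hK : Body C₀ K) : ENNReal.ofReal (Vl K) = volume K :=
  ENNReal.ofReal_toReal (vol_fin hK)

theorem Vl_pos {C₀ : ℝ} {K : Set E} (hK : Body C₀ K) : 0 < Vl K := by
  have h1 : 0 < volume (ball (0 : E) 1) := measure_ball_pos _ _ one_pos
  have h2 : volume (ball (0 : E) 1) ≤ volume K :=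
    measure_mono (ball_subset_closedBall.trans hK.ball)
  exact ENNReal.toReal_pos (h1.trans_le h2).ne' (vol_fin hK)

/-- Layer cake for the volume. -/
theorem cake {C₀ : ℝ} {K : Set E} (hK : Body C₀ K) (D : Dir) :
    volume K = ENNReal.ofReal D.c * ∫⁻ t in Ioi (0 : ℝ), volume {y : ℝ × ℝ | t ≤ fl D K y} := by
  rw [D.fub K hK.cpt.isClosed.measurableSet]
  congr 1
  rw [← lintegral_eq_lintegral_meas_le volume
    (Filter.Eventually.of_forall fun y => fl_nonneg D K y) (meas_fl hK D).aemeasurable]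
  refine lintegral_congr fun y => ?_
  exact (ofReal_fl hK D y).symm

/-- The chords over `(1 - r) y₀ + r p`. -/
theorem conc {C₀ : ℝ} {K : Set E} (hK : Body C₀ K) (D : Dir) (y₀ p : ℝ × ℝ)
    (hp : p ∈ D.φ '' K) {r : ℝ} (h0 : 0 ≤ r) (h1 : r ≤ 1) :
    (1 - r) * fl D K y₀ ≤ fl D K ((1 - r) • y₀ + r • p) := by
  obtain ⟨x, hx, rfl⟩ := hp
  obtain ⟨a, ha⟩ := D.dec x
  have hsub : (fun s : ℝ => (1 - r) * s + r * a) '' sec D K y₀ ⊆
      sec D K ((1 - r) • y₀ + r • D.φ x) := by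
    rintro _ ⟨s, hs, rfl⟩
    have h2 : (1 - r) • (D.ℓ y₀ + s • D.u) + r • x ∈ K :=
      hK.cvx hs hx (by linarith) h0 (by ring)
    have h3 : (1 - r) • (D.ℓ y₀ + s • D.u) + r • x =
        D.ℓ ((1 - r) • y₀ + r • D.φ x) + ((1 - r) * s + r * a) • D.u := by
      conv_lhs => rw [ha]
      rw [map_add, map_smul, map_smul]
      module
    show D.ℓ ((1 - r) • y₀ + r • D.φ x) + ((1 - r) * s + r * a) • D.u ∈ K
    rw [← h3]; exact h2
  have hvol : volume ((fun s : ℝ => (1 - r) * s + r * a) '' sec D K y₀) =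
      ENNReal.ofReal (1 - r) * volume (sec D K y₀) := by
    have e1 : (fun s : ℝ => (1 - r) * s + r * a) '' sec D K y₀ =
        (fun s => s + r * a) '' ((1 - r) • sec D K y₀) := by
      rw [← image_smul, image_image]; rfl
    rw [e1, image_add_right, measure_preimage_add_right, Measure.addHaar_smul]
    simp [abs_of_nonneg (by linarith : (0 : ℝ) ≤ 1 - r)]
  have h4 : ENNReal.ofReal (1 - r) * volume (sec D K y₀) ≤
      volume (sec D K ((1 - r) • y₀ + r • D.φ x)) := by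
    rw [← hvol]; exact measure_mono hsub
  rw [← ofReal_fl hK, ← ofReal_fl hK, ← ENNReal.ofReal_mul (by linarith)] at h4
  exact (ENNReal.ofReal_le_ofReal_iff (fl_nonneg _ _ _)).1 h4

/-- The area of `a + r P`. -/
theorem area (P : Set (ℝ × ℝ)) (a : ℝ × ℝ) {r : ℝ} (h0 : 0 ≤ r) :
    volume ((fun p : ℝ × ℝ => a + r • p) '' P) = ENNReal.ofReal (r ^ 2) * volume P := by
  have e1 : (fun p : ℝ × ℝ => a + r • p) '' P = (fun s => a + s) '' (r • P) := by
    rw [← image_smul, image_image]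
  rw [e1, image_add_left, measure_preimage_add, Measure.addHaar_smul]
  simp [abs_of_nonneg h0]

/-- The set `a + r P` of the layer cake. -/
theorem layer {C₀ : ℝ} {K : Set E} (hK : Body C₀ K) (D : Dir) (y₀ : ℝ × ℝ) {r t : ℝ}
    (h0 : 0 ≤ r) (h1 : r ≤ 1) (ht : t ≤ (1 - r) * fl D K y₀) :
    (fun p : ℝ × ℝ => (1 - r) • y₀ + r • p) '' (D.φ '' K) ⊆ {y | t ≤ fl D K y} := by
  rintro _ ⟨p, hp, rfl⟩
  exact ht.trans (conc hK D y₀ p hp h0 h1)

theorem int_sq {F : ℝ} (hF : 0 < F) :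
    ∫⁻ t in Ioi (0 : ℝ), (Ioo (0 : ℝ) F).indicator (fun t => ENNReal.ofReal ((1 - t / F) ^ 2)) t =
      ENNReal.ofReal (F / 3) := by
  rw [lintegral_indicator measurableSet_Ioo, Measure.restrict_restrict measurableSet_Ioo]
  have e : Ioo (0 : ℝ) F ∩ Ioi 0 = Ioo 0 F := by
    ext t; simp only [mem_inter_iff, mem_Ioo, mem_Ioi]; tauto
  rw [e, ← ofReal_integral_eq_lintegral_ofReal]
  · congr 1
    rw [← integral_Ioc_eq_integral_Ioo, ← intervalIntegral.integral_of_le hF.le]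
    have hd : ∀ x ∈ uIcc (0 : ℝ) F,
        HasDerivAt (fun t => -(F / 3) * (1 - t / F) ^ 3) ((1 - x / F) ^ 2) x := by
      intro x _
      have h1 : HasDerivAt (fun t : ℝ => 1 - t / F) (-(1 / F)) x := by
        simpa using ((hasDerivAt_id x).div_const F).const_sub 1
      have h2 := (h1.pow 3).const_mul (-(F / 3))
      refine h2.congr_deriv ?_
      have hF' : F ≠ 0 := hF.ne'
      push_cast
      field_simp
    rw [intervalIntegral.integral_eq_sub_of_hasDerivAt hd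
      (by apply Continuous.intervalIntegrable; fun_prop)]
    field_simp
    ring
  · have : IntegrableOn (fun t : ℝ => (1 - t / F) ^ 2) (Icc 0 F) volume :=
      (by fun_prop : Continuous fun t : ℝ => (1 - t / F) ^ 2).integrableOn_Icc
    exact this.mono_set Ioo_subset_Icc_self
  · exact Filter.Eventually.of_forall fun t => sq_nonneg _

/-- **Block C1**: `c A f(y) ≤ 3 V`. -/
theorem p_rs : P_rs := by
  intro C₀ K hK D y
  rcases (fl_nonneg D K y).eq_or_lt with h0 | hF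
  · rw [← h0]; simp [Vl]
  set F := fl D K y with hFd
  have key : ∫⁻ t in Ioi (0 : ℝ), (Ioo (0 : ℝ) F).indicator
      (fun t => ENNReal.ofReal ((1 - t / F) ^ 2)) t * volume (D.φ '' K) ≤
      ∫⁻ t in Ioi (0 : ℝ), volume {y : ℝ × ℝ | t ≤ fl D K y} := by
    refine lintegral_mono fun t => ?_
    by_cases ht : t ∈ Ioo 0 F
    · have hr0 : 0 ≤ 1 - t / F := by
        have := (div_le_one hF).2 ht.2.le; linarith
      have hr1 : 1 - t / F ≤ 1 := by
        have := (div_pos ht.1 hF).le; linarith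
      have h2 : volume ((fun p : ℝ × ℝ => (1 - (1 - t / F)) • y + (1 - t / F) • p) '' (D.φ '' K)) ≤
          volume {y : ℝ × ℝ | t ≤ fl D K y} := by
        refine measure_mono (layer hK D y hr0 hr1 ?_)
        rw [← hFd]
        have : (1 - (1 - t / F)) * F = t := by field_simp; ring
        rw [this]
      rw [area _ _ hr0] at h2
      simpa [indicator_of_mem ht] using h2
    · simp [indicator_of_notMem ht]
  rw [lintegral_mul_const _ (by
    apply Measurable.indicator _ measurableSet_Ioo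
    fun_prop), int_sq hF] at key
  have h3 : ENNReal.ofReal D.c * (ENNReal.ofReal (F / 3) * volume (D.φ '' K)) ≤ volume K := by
    rw [cake hK D]
    exact mul_le_mul_right key _
  rw [← ofReal_Ar hK D, ← ofReal_Vl hK, ← ENNReal.ofReal_mul (by positivity),
    ← ENNReal.ofReal_mul D.c_pos.le] at h3
  have h4 := (ENNReal.ofReal_le_ofReal_iff (Vl_pos hK).le).1 h3
  linarith

/-- Scaling towards a point of a convex set. -/
theorem scale_mem {P : Set (ℝ × ℝ)} (hP : Convex ℝ P) {y₀ v : ℝ × ℝ} (h0 : y₀ ∈ P)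
    {ρ : ℝ} (hρ : 0 < ρ) {a b : ℝ} (ha : 0 ≤ a) (hb : 0 ≤ b) (hab : a + b = ρ) {p q : ℝ × ℝ}
    (hp : y₀ + p ∈ P) (hq : y₀ + q ∈ P) (hv : v = a • p + b • q) : y₀ + (1 / ρ) • v ∈ P := by
  have h := hP hp hq (div_nonneg ha hρ.le) (div_nonneg hb hρ.le)
    (by rw [← add_div, hab, div_self hρ.ne'])
  have e : (a / ρ) • (y₀ + p) + (b / ρ) • (y₀ + q) = y₀ + (1 / ρ) • v := by
    have e1 : (a / ρ) + (b / ρ) = 1 := by rw [← add_div, hab, div_self hρ.ne']
    have e2 : (a / ρ) • (y₀ + p) + (b / ρ) • (y₀ + q) =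
        ((a / ρ) + (b / ρ)) • y₀ + ((1 / ρ) • (a • p) + (1 / ρ) • (b • q)) := by
      simp only [div_eq_mul_inv]; module
    rw [e2, e1, hv, one_smul, smul_add]
  rw [← e]; exact h

/-- A ball of radius `1/2` about `z`. -/
theorem z_ball {C₀ : ℝ} {K : Set E} (hK : Body C₀ K) {z v : E} (hz : ‖z‖ ≤ 1 / 2)
    (hv : ‖v‖ ≤ 1 / 2) : z + v ∈ K := by
  apply hK.ball
  simp only [mem_closedBall, dist_zero_right]
  exact (norm_add_le _ _).trans (by linarith)

/-- The layers over `y₀` and over `x₁` are disjoint. -/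
theorem disj {C₀ : ℝ} {K : Set E} (hC : 1 ≤ C₀) (hK : Body C₀ K) (D : Dir) {z w : E}
    (hz : ‖z‖ ≤ 1 / 2) (hw1 : D.φ (z + w) ∈ D.φ '' K)
    (hw2 : ∀ r : ℝ, 1 < r → D.φ (z + r • w) ∉ D.φ '' K) {s σ r : ℝ} (hs0 : 0 ≤ s) (hs1 : s ≤ 1)
    (hσ0 : 0 < σ) (hr0 : 0 ≤ r) (hr : r < s - 4 * C₀ * σ) :
    Disjoint ((fun p : ℝ × ℝ => (1 - r) • D.φ z + r • p) '' (D.φ '' K))
      ((fun p : ℝ × ℝ => (1 - σ) • D.φ (z + s • w) + σ • p) '' (D.φ '' K)) := by
  rw [Set.disjoint_left]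
  rintro _ ⟨p', hp', rfl⟩ ⟨_, ⟨x, hx, rfl⟩, he⟩
  have hC0 : (0 : ℝ) < C₀ := by linarith
  have hy0 : D.φ z ∈ D.φ '' K := ⟨z, by simpa using z_ball hK hz (v := 0) (by simp), rfl⟩
  -- a point of `K` over `x₁`
  have hx1 : D.φ (z + s • w) ∈ D.φ '' K := by
    have h := (sh_cvx hK D) hy0 hw1 (by linarith : (0 : ℝ) ≤ 1 - s) hs0 (by ring)
    have e : (1 - s) • D.φ z + s • D.φ (z + w) = D.φ (z + s • w) := by
      simp only [map_add, map_smul]; module
    rw [← e]; exact h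
  obtain ⟨x', hx', hx'e⟩ := hx1
  have hq : D.φ z + D.φ ((1 / (4 * C₀)) • (x' - x)) ∈ D.φ '' K := by
    refine ⟨z + (1 / (4 * C₀)) • (x' - x), z_ball hK hz ?_, by rw [map_add]⟩
    have h1 : ‖x'‖ ≤ C₀ := by simpa using hK.bdd hx'
    have h2 : ‖x‖ ≤ C₀ := by simpa using hK.bdd hx
    have h3 : ‖x' - x‖ ≤ 2 * C₀ := (norm_sub_le _ _).trans (by linarith)
    rw [norm_smul, Real.norm_of_nonneg (by positivity)]
    calc 1 / (4 * C₀) * ‖x' - x‖ ≤ 1 / (4 * C₀) * (2 * C₀) := by gcongr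
      _ = 1 / 2 := by field_simp; norm_num
  have hp'' : D.φ z + (p' - D.φ z) ∈ D.φ '' K := by simpa using hp'
  have hρ : 0 < r + 4 * C₀ * σ := by positivity
  have hv : s • D.φ w = r • (p' - D.φ z) + (4 * C₀ * σ) • D.φ ((1 / (4 * C₀)) • (x' - x)) := by
    have h4 : (4 * C₀ * σ) • D.φ ((1 / (4 * C₀)) • (x' - x)) =
        σ • (D.φ (z + s • w) - D.φ x) := by
      rw [map_smul, smul_smul, map_sub, hx'e]
      congr 1
      field_simp
    rw [h4]
    have he' : (1 - σ) • D.φ (z + s • w) + σ • D.φ x = (1 - r) • D.φ z + r • p' := he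
    have h5 : D.φ (z + s • w) = D.φ z + s • D.φ w := by simp only [map_add, map_smul]
    have h6 : s • D.φ w = (D.φ z + s • D.φ w) - D.φ z := by abel
    rw [h6, ← h5]
    have h7 : D.φ (z + s • w) - D.φ z = ((1 - σ) • D.φ (z + s • w) + σ • D.φ x) +
        σ • (D.φ (z + s • w) - D.φ x) - D.φ z := by module
    rw [h7, he']
    module
  have hm := scale_mem (sh_cvx hK D) hy0 hρ hr0 (by positivity : (0 : ℝ) ≤ 4 * C₀ * σ) rfl hp'' hq hv
  have hm' : D.φ (z + (s / (r + 4 * C₀ * σ)) • w) ∈ D.φ '' K := by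
    have e : D.φ (z + (s / (r + 4 * C₀ * σ)) • w) =
        D.φ z + (1 / (r + 4 * C₀ * σ)) • s • D.φ w := by
      simp only [map_add, map_smul, smul_smul]
      congr 2
      ring
    rw [e]; exact hm
  refine hw2 _ ?_ hm'
  rw [lt_div_iff₀ hρ]
  linarith

/-- **Block C2**: near equality forces nearly linear chords along the rays. -/
theorem p_tent : P_tent := by
  intro C₀ κ hC hκ
  obtain ⟨k, hk0, hk1, hkκ⟩ : ∃ k : ℝ, 0 < k ∧ k ≤ 1 ∧ k ≤ κ :=
    ⟨min κ 1, lt_min hκ one_pos, min_le_right _ _, min_le_left _ _⟩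
  have hden : (0 : ℝ) < 4 + 8 * C₀ := by linarith
  obtain ⟨σ, hσ0, hσk, hσ1⟩ : ∃ σ : ℝ, 0 < σ ∧ σ * (2 + 4 * C₀) = k / 2 ∧ σ ≤ 1 := by
    refine ⟨k / (4 + 8 * C₀), div_pos hk0 hden, ?_, ?_⟩
    · field_simp; ring
    · rw [div_le_one hden]; linarith
  refine ⟨σ ^ 2 * k, by positivity, ?_⟩
  intro K hK D z hz hnear w hw1 hw2 s hs0 hs1
  by_contra hcon
  push Not at hcon
  have hf0n := fl_nonneg D K (D.φ z)
  have hV := Vl_pos hK
  have hη1 : σ ^ 2 * k ≤ 1 := by
    have : σ ^ 2 ≤ 1 := pow_le_one₀ hσ0.le hσ1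
    calc σ ^ 2 * k ≤ 1 * 1 := by gcongr
      _ = 1 := one_mul 1
  have hpos : 0 < D.c * Ar D K * fl D K (D.φ z) :=
    lt_of_lt_of_le (mul_pos (by linarith) hV) hnear
  have hA : 0 ≤ Ar D K := ENNReal.toReal_nonneg
  have hf0 : 0 < fl D K (D.φ z) := by
    rcases hf0n.eq_or_lt with h | h
    · rw [← h] at hpos; simp at hpos
    · exact h
  have hcon' : fl D K (D.φ z) * (1 - s + k) < fl D K (D.φ (z + s • w)) :=
    lt_of_le_of_lt (mul_le_mul_of_nonneg_left (by linarith) hf0n) hcon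
  set F := fl D K (D.φ z) with hFd
  set P := D.φ '' K with hP
  have hPc : IsCompact P := sh_cpt hK D
  set lo : ℝ := F * (1 - s + 4 * C₀ * σ) with hlo
  set hi : ℝ := (1 - σ) * (F * (1 - s + k)) with hhi
  have hC0 : (0 : ℝ) < C₀ := by linarith
  have hlo0 : 0 ≤ lo := by
    have : 0 ≤ 1 - s + 4 * C₀ * σ := by
      have : 0 ≤ 4 * C₀ * σ := by positivity
      linarith
    positivity
  have hlen : F * k / 2 ≤ hi - lo := by
    have h1 : hi - lo = F * (k - σ * (1 - s + k) - 4 * C₀ * σ) := by rw [hhi, hlo]; ring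
    have h2 : k / 2 ≤ k - σ * (1 - s + k) - 4 * C₀ * σ := by
      have h3 : σ * (1 - s + k) ≤ σ * 2 := mul_le_mul_of_nonneg_left (by linarith) hσ0.le
      nlinarith
    rw [h1]
    calc F * k / 2 = F * (k / 2) := by ring
      _ ≤ _ := mul_le_mul_of_nonneg_left h2 hf0.le
  have key : ∫⁻ t in Ioi (0 : ℝ), ((Ioo (0 : ℝ) F).indicator
      (fun t => ENNReal.ofReal ((1 - t / F) ^ 2)) t * volume P +
      (Ioo lo hi).indicator (fun _ => ENNReal.ofReal (σ ^ 2) * volume P) t) ≤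
      ∫⁻ t in Ioi (0 : ℝ), volume {y : ℝ × ℝ | t ≤ fl D K y} := by
    refine lintegral_mono fun t => ?_
    have hT1 : t ∈ Ioo 0 F → 0 ≤ 1 - t / F ∧ 1 - t / F ≤ 1 ∧
        (fun p : ℝ × ℝ => (1 - (1 - t / F)) • D.φ z + (1 - t / F) • p) '' P ⊆
          {y : ℝ × ℝ | t ≤ fl D K y} := by
      intro ht
      have hr0 : 0 ≤ 1 - t / F := by
        have := (div_le_one hf0).2 ht.2.le; linarith
      have hr1 : 1 - t / F ≤ 1 := by
        have := (div_pos ht.1 hf0).le; linarith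
      refine ⟨hr0, hr1, layer hK D _ hr0 hr1 ?_⟩
      rw [← hFd]
      have : (1 - (1 - t / F)) * F = t := by field_simp; ring
      rw [this]
    have hT2 : t ∈ Ioo lo hi →
        (fun p : ℝ × ℝ => (1 - σ) • D.φ (z + s • w) + σ • p) '' P ⊆
          {y : ℝ × ℝ | t ≤ fl D K y} := by
      intro ht
      refine layer hK D _ hσ0.le hσ1 ?_
      refine ht.2.le.trans ?_
      rw [hhi]
      exact mul_le_mul_of_nonneg_left hcon'.le (by linarith)
    by_cases h1 : t ∈ Ioo 0 F <;> by_cases h2 : t ∈ Ioo lo hi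
    · obtain ⟨hr0, hr1, hs1'⟩ := hT1 h1
      have hs2' := hT2 h2
      have hrlt : 1 - t / F < s - 4 * C₀ * σ := by
        have h3 : lo / F < t / F := div_lt_div_of_pos_right h2.1 hf0
        have h4 : lo / F = 1 - s + 4 * C₀ * σ := by rw [hlo]; field_simp
        linarith
      have hd := disj hC hK D hz hw1 hw2 hs0 hs1 hσ0 hr0 hrlt
      have hm : MeasurableSet
          ((fun p : ℝ × ℝ => (1 - σ) • D.φ (z + s • w) + σ • p) '' P) :=
        (hPc.image (by fun_prop)).measurableSet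
      have h5 := measure_union hd hm (μ := volume)
      have h6 : volume (((fun p : ℝ × ℝ => (1 - (1 - t / F)) • D.φ z + (1 - t / F) • p) '' P) ∪
          ((fun p : ℝ × ℝ => (1 - σ) • D.φ (z + s • w) + σ • p) '' P)) ≤
          volume {y : ℝ × ℝ | t ≤ fl D K y} := measure_mono (union_subset hs1' hs2')
      rw [h5, area _ _ hr0, area _ _ hσ0.le] at h6
      simpa [indicator_of_mem h1, indicator_of_mem h2] using h6
    · obtain ⟨hr0, hr1, hs1'⟩ := hT1 h1
      have h6 := measure_mono (μ := volume) hs1'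
      rw [area _ _ hr0] at h6
      simpa [indicator_of_mem h1, indicator_of_notMem h2] using h6
    · have h6 := measure_mono (μ := volume) (hT2 h2)
      rw [area _ _ hσ0.le] at h6
      simpa [indicator_of_notMem h1, indicator_of_mem h2] using h6
    · simp [indicator_of_notMem h1, indicator_of_notMem h2]
  have hint2 : ENNReal.ofReal (σ ^ 2) * volume P * ENNReal.ofReal (F * k / 2) ≤
      ∫⁻ t in Ioi (0 : ℝ), (Ioo lo hi).indicator (fun _ => ENNReal.ofReal (σ ^ 2) * volume P) t := by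
    rw [lintegral_indicator measurableSet_Ioo, Measure.restrict_restrict measurableSet_Ioo]
    have e : Ioo lo hi ∩ Ioi 0 = Ioo lo hi := by
      ext t; simp only [mem_inter_iff, mem_Ioo, mem_Ioi]
      exact ⟨fun h => h.1, fun h => ⟨h, lt_of_le_of_lt hlo0 h.1⟩⟩
    rw [e, lintegral_const, Measure.restrict_apply_univ, Real.volume_Ioo]
    gcongr
  rw [lintegral_add_left (by
      refine Measurable.mul_const ?_ _
      apply Measurable.indicator _ measurableSet_Ioo
      fun_prop),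
    lintegral_mul_const _ (by
      apply Measurable.indicator _ measurableSet_Ioo
      fun_prop), int_sq hf0] at key
  have h3 : ENNReal.ofReal D.c * (ENNReal.ofReal (F / 3) * volume P +
      ENNReal.ofReal (σ ^ 2) * volume P * ENNReal.ofReal (F * k / 2)) ≤ volume K := by
    rw [cake hK D]
    refine mul_le_mul_right (le_trans ?_ key) _
    gcongr
  rw [hP, ← ofReal_Ar hK D, ← ofReal_Vl hK, ← ENNReal.ofReal_mul (by positivity),
    ← ENNReal.ofReal_mul (by positivity), ← ENNReal.ofReal_mul (by positivity),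
    ← ENNReal.ofReal_add (by positivity) (by positivity),
    ← ENNReal.ofReal_mul D.c_pos.le] at h3
  have h4 := (ENNReal.ofReal_le_ofReal_iff (Vl_pos hK).le).1 h3
  set X := D.c * Ar D K * F with hX
  have h5 : D.c * (F / 3 * Ar D K + σ ^ 2 * Ar D K * (F * k / 2)) =
      X * (1 / 3 + σ ^ 2 * k / 2) := by rw [hX]; ring
  rw [h5] at h4
  set η := σ ^ 2 * k with hη
  have hη0 : 0 < η := by positivity
  have h6 : (3 - η) * (X * (1 / 3 + η / 2)) ≤ X :=
    (mul_le_mul_of_nonneg_left h4 (by linarith)).trans hnear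
  have h7 : (3 - η) * (1 / 3 + η / 2) ≤ 1 := by
    by_contra h
    push Not at h
    have := mul_lt_mul_of_pos_left h hpos
    nlinarith
  nlinarith

end Vale.Agent.P243.LB.H713
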