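import Vale.Agent.P243.LB.Sharp
import Vale.Agent.P243.LB.Tent

/-!
# P243, the lower bound `r₃ > 1/3`: the measures of the pieces of one cylinder
-/

set_option autoImplicit false
set_option linter.unusedVariables false

namespace Vale.Agent.P243.LB

open MeasureTheory Set Metric
open scoped RealInnerProductSpace ENNReal

variable {C₀ : ℝ} {K : Set E}

theorem phi_pt (D : Dir) (y : ℝ × ℝ) (s : ℝ) : D.φ (D.ℓ y + s • D.u) = y := by
  rw [map_add, map_smul, D.φℓ, D.φu, smul_zero, add_zero]

/-- Fubini over a base. -/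
theorem fub_base (D : Dir) {X : Set E} (hX : MeasurableSet X) {B : Set (ℝ × ℝ)}
    (hB : MeasurableSet B) :
    volume (X ∩ D.φ ⁻¹' B) =
      ENNReal.ofReal D.c * ∫⁻ y in B, volume {s : ℝ | D.ℓ y + s • D.u ∈ X} := by
  rw [D.fub _ (hX.inter (D.φ.measurable hB)), ← lintegral_indicator hB]
  congr 1
  refine lintegral_congr fun y => ?_
  by_cases hy : y ∈ B
  · rw [indicator_of_mem hy]
    congr 1
    ext s
    simp only [mem_ofPred_eq, mem_inter_iff, mem_preimage, phi_pt]
    tauto
  · rw [indicator_of_notMem hy]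
    have : {s : ℝ | D.ℓ y + s • D.u ∈ X ∩ D.φ ⁻¹' B} = ∅ := by
      ext s
      simp only [mem_ofPred_eq, mem_inter_iff, mem_preimage, phi_pt, mem_empty_iff_false, iff_false]
      tauto
    rw [this, measure_empty]

/-- The shadow has positive area. -/
theorem ar_pos (hB : Body C₀ K) (D : Dir) : 0 < Ar D K := by
  by_contra hcon
  have h0 : Ar D K = 0 := le_antisymm (not_lt.1 hcon) ENNReal.toReal_nonneg
  have h1 : volume (D.φ '' K) = 0 := by
    rw [← H713.ofReal_Ar hB D, h0, ENNReal.ofReal_zero]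
  have h2 : K ∩ D.φ ⁻¹' (D.φ '' K) = K := inter_eq_left.2 (subset_preimage_image _ _)
  have h3 := fub_base D hB.cpt.measurableSet (H713.sh_cpt hB D).measurableSet
  rw [h2, setLIntegral_measure_zero _ _ h1, mul_zero] at h3
  have h4 := vl_pos hB
  rw [Vl, h3] at h4
  simp at h4

/-- The chord through the centre. -/
theorem one_le_fl (hB : Body C₀ K) (D : Dir) : 1 ≤ fl D K (D.φ 0) := by
  have h0 : (0 : E) ∈ K := hB.ball (by simp)
  obtain ⟨a, b, hab, hch, hfl⟩ := chord hB D (x := 0) ⟨0, h0, rfl⟩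
  have hin : ∀ r : ℝ, |r| ≤ 1 → (0 : E) + r • D.u ∈ K := by
    intro r hr
    refine hB.ball ?_
    rw [mem_closedBall_zero_iff, zero_add, norm_smul, D.norm_u, mul_one, Real.norm_eq_abs]
    exact hr
  have h1 := (hch 1).1 (hin 1 (by norm_num))
  have h2 := (hch (-1)).1 (hin (-1) (by norm_num))
  rw [hfl]
  linarith [h1.2, h2.1]

/-- The Jacobian times the area is at most `3 V`. -/
theorem c_ar_le (hrs : P_rs) (hB : Body C₀ K) (D : Dir) : D.c * Ar D K ≤ 3 * Vl K := by
  have h1 := hrs C₀ K hB D (D.φ 0)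
  have h2 := one_le_fl hB D
  have h3 : 0 ≤ D.c * Ar D K := mul_nonneg D.c_pos.le ENNReal.toReal_nonneg
  nlinarith

/-- The bad part of a base. -/
def bad (η : ℝ) (D : Dir) (K : Set E) (B : Set (ℝ × ℝ)) : Set (ℝ × ℝ) :=
  {y | y ∈ B ∧ D.c * Ar D K * fl D K y < (3 - η) * Vl K}

theorem meas_bad (hB : Body C₀ K) (η : ℝ) (D : Dir) {B : Set (ℝ × ℝ)} (hm : MeasurableSet B) :
    MeasurableSet (bad η D K B) :=
  hm.inter (measurableSet_lt ((H713.meas_fl hB D).const_mul _) measurable_const)

theorem bad_sub (η : ℝ) (D : Dir) (K : Set E) (B : Set (ℝ × ℝ)) : bad η D K B ⊆ B := fun _ h => h.1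

/-- **(i1)** The volume of a cylinder in `K`. -/
theorem vol_cyl (hrs : P_rs) (hB : Body C₀ K) (D : Dir) {η : ℝ} (hη : η ≤ 3)
    {B : Set (ℝ × ℝ)} (hm : MeasurableSet B) (hf : volume B ≠ ∞) :
    (volume (K ∩ D.φ ⁻¹' B)).toReal ≤
      3 * Vl K * ((volume B).toReal / Ar D K) -
        η * Vl K * ((volume (bad η D K B)).toReal / Ar D K) := by
  have hA := ar_pos hB D
  have hV := vl_pos hB
  have hc := D.c_pos
  have hmb := meas_bad hB η D hm
  have hfb : volume (bad η D K B) ≠ ∞ := ne_top_of_le_ne_top hf (measure_mono (bad_sub _ _ _ _))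
  have hfd : volume (B \ bad η D K B) ≠ ∞ := ne_top_of_le_ne_top hf (measure_mono diff_subset)
  have h1 : ∫⁻ y in B, volume {s : ℝ | D.ℓ y + s • D.u ∈ K} ≤
      ENNReal.ofReal ((3 - η) * Vl K / (D.c * Ar D K)) * volume (bad η D K B) +
        ENNReal.ofReal (3 * Vl K / (D.c * Ar D K)) * volume (B \ bad η D K B) := by
    rw [← lintegral_inter_add_diff (A := B) _ hmb]
    have e1 : B ∩ bad η D K B = bad η D K B := inter_eq_right.2 (bad_sub _ _ _ _)
    rw [e1]
    refine add_le_add ?_ ?_
    · rw [← setLIntegral_const]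
      refine setLIntegral_mono' hmb fun y hy => ?_
      have h2 := H713.ofReal_fl hB D y
      rw [show {s : ℝ | D.ℓ y + s • D.u ∈ K} = H713.sec D K y from rfl, ← h2]
      refine ENNReal.ofReal_le_ofReal ?_
      rw [le_div_iff₀ (by positivity)]
      have := hy.2
      linarith
    · rw [← setLIntegral_const]
      refine setLIntegral_mono' (hm.diff hmb) fun y hy => ?_
      have h2 := H713.ofReal_fl hB D y
      rw [show {s : ℝ | D.ℓ y + s • D.u ∈ K} = H713.sec D K y from rfl, ← h2]
      refine ENNReal.ofReal_le_ofReal ?_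
      rw [le_div_iff₀ (by positivity)]
      have := hrs C₀ K hB D y
      linarith
  rw [fub_base D hB.cpt.measurableSet hm, ENNReal.toReal_mul, ENNReal.toReal_ofReal hc.le]
  have h2 := ENNReal.toReal_mono (by
    refine ENNReal.add_ne_top.2 ⟨ENNReal.mul_ne_top ENNReal.ofReal_ne_top hfb,
      ENNReal.mul_ne_top ENNReal.ofReal_ne_top hfd⟩) h1
  rw [ENNReal.toReal_add (ENNReal.mul_ne_top ENNReal.ofReal_ne_top hfb)
    (ENNReal.mul_ne_top ENNReal.ofReal_ne_top hfd), ENNReal.toReal_mul, ENNReal.toReal_mul,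
    ENNReal.toReal_ofReal (by
      refine div_nonneg (mul_nonneg (by linarith) hV.le) (by positivity)),
    ENNReal.toReal_ofReal (by positivity)] at h2
  have h3 : (volume B).toReal =
      (volume (bad η D K B)).toReal + (volume (B \ bad η D K B)).toReal := by
    rw [← ENNReal.toReal_add hfb hfd, ← measure_inter_add_diff B hmb,
      inter_eq_right.2 (bad_sub _ _ _ _)]
  have h4 := mul_le_mul_of_nonneg_left h2 hc.le
  refine h4.trans (le_of_eq ?_)
  rw [h3]
  field_simp
  ring

/-- **(i2)** A lower bound of the volume of a part of a cylinder. -/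
theorem vol_ge (D : Dir) {X : Set E} (hX : MeasurableSet X) (hXf : volume X ≠ ∞)
    {B G : Set (ℝ × ℝ)} (hm : MeasurableSet B)
    (hG : MeasurableSet G) (hGB : G ⊆ B) {t : ℝ} (ht : 0 ≤ t)
    (h : ∀ y ∈ G, ENNReal.ofReal t ≤ volume {s : ℝ | D.ℓ y + s • D.u ∈ X}) :
    D.c * (t * (volume G).toReal) ≤ (volume (X ∩ D.φ ⁻¹' B)).toReal := by
  have h1 : ENNReal.ofReal D.c * (ENNReal.ofReal t * volume G) ≤ volume (X ∩ D.φ ⁻¹' B) := by
    rw [fub_base D hX hm]
    refine mul_le_mul_right ?_ _
    calc ENNReal.ofReal t * volume G = ∫⁻ _ in G, ENNReal.ofReal t := by rw [setLIntegral_const]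
      _ ≤ ∫⁻ y in G, volume {s : ℝ | D.ℓ y + s • D.u ∈ X} := setLIntegral_mono' hG h
      _ ≤ _ := lintegral_mono_set hGB
  have h2 := ENNReal.toReal_mono (ne_top_of_le_ne_top hXf (measure_mono inter_subset_left)) h1
  rwa [ENNReal.toReal_mul, ENNReal.toReal_mul, ENNReal.toReal_ofReal D.c_pos.le,
    ENNReal.toReal_ofReal ht] at h2

/-- **(i3)** The volume of a cylinder in the small ball. -/
theorem vol_ball (D : Dir) {B : Set (ℝ × ℝ)} (hm : MeasurableSet B) (hf : volume B ≠ ∞) :
    (volume (closedBall (0 : E) (1 / 2) ∩ D.φ ⁻¹' B)).toReal ≤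
      D.c * (volume (B ∩ D.φ '' closedBall (0 : E) (1 / 2))).toReal := by
  have hc2 : IsCompact (D.φ '' closedBall (0 : E) (1 / 2)) :=
    (isCompact_closedBall _ _).image D.φ.continuous
  have h1 : volume (closedBall (0 : E) (1 / 2) ∩ D.φ ⁻¹' B) ≤
      ENNReal.ofReal D.c * volume (B ∩ D.φ '' closedBall (0 : E) (1 / 2)) := by
    rw [fub_base D measurableSet_closedBall hm]
    refine mul_le_mul_right ?_ _
    calc ∫⁻ y in B, volume {s : ℝ | D.ℓ y + s • D.u ∈ closedBall (0 : E) (1 / 2)} ≤
        ∫⁻ y in B, (D.φ '' closedBall (0 : E) (1 / 2)).indicator (fun _ => (1 : ℝ≥0∞)) y := by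
          refine lintegral_mono fun y => ?_
          by_cases hy : y ∈ D.φ '' closedBall (0 : E) (1 / 2)
          · rw [indicator_of_mem hy]
            refine (Real.volume_le_diam _).trans ?_
            refine EMetric.diam_le fun s hs s' hs' => ?_
            rw [mem_ofPred_eq, mem_closedBall_zero_iff] at hs hs'
            rw [edist_dist, ← ENNReal.ofReal_one]
            refine ENNReal.ofReal_le_ofReal ?_
            have h2 : ‖(s - s') • D.u‖ ≤ 1 := by
              calc ‖(s - s') • D.u‖ = ‖(D.ℓ y + s • D.u) - (D.ℓ y + s' • D.u)‖ := by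
                    congr 1; module
                _ ≤ _ := norm_sub_le _ _
                _ ≤ 1 := by linarith
            rwa [norm_smul, D.norm_u, mul_one, Real.norm_eq_abs, ← Real.dist_eq] at h2
          · rw [indicator_of_notMem hy]
            have : {s : ℝ | D.ℓ y + s • D.u ∈ closedBall (0 : E) (1 / 2)} = ∅ := by
              ext s
              rw [mem_ofPred_eq]
              simp only [mem_empty_iff_false, iff_false]
              intro hs
              exact hy ⟨_, hs, phi_pt D y s⟩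
            rw [this, measure_empty]
      _ = volume (B ∩ D.φ '' closedBall (0 : E) (1 / 2)) := by
          rw [lintegral_indicator_const hc2.measurableSet, one_mul,
            Measure.restrict_apply hc2.measurableSet, inter_comm]
  have hfin : volume (B ∩ D.φ '' closedBall (0 : E) (1 / 2)) ≠ ∞ :=
    ne_top_of_le_ne_top hf (measure_mono inter_subset_left)
  have h2 := ENNReal.toReal_mono (ENNReal.mul_ne_top ENNReal.ofReal_ne_top hfin) h1
  rwa [ENNReal.toReal_mul, ENNReal.toReal_ofReal D.c_pos.le] at h2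

end Vale.Agent.P243.LB
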