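import Vale.Agent.P243.LB.Key

/-!
# P243, the lower bound `r₃ > 1/3`: the sharp end of a line of near equality (block D)
-/

set_option autoImplicit false
set_option linter.unusedVariables false

namespace Vale.Agent.P243.LB

open MeasureTheory Set Metric
open scoped RealInnerProductSpace ENNReal

variable {C₀ : ℝ} {K : Set E}

/-- The chord over a point of the shadow. -/
theorem chord (hB : Body C₀ K) (D : Dir) {x : E} (hx : D.φ x ∈ D.φ '' K) :
    ∃ a b : ℝ, a ≤ b ∧ (∀ s : ℝ, x + s • D.u ∈ K ↔ a ≤ s ∧ s ≤ b) ∧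
      fl D K (D.φ x) = b - a := by
  obtain ⟨k, hk, hkx⟩ := hx
  obtain ⟨s₀, hs₀⟩ := D.dec x
  obtain ⟨s₁, hs₁⟩ := D.dec k
  rw [hkx] at hs₁
  set S : Set ℝ := {s | x + s • D.u ∈ K} with hS
  have hne : S.Nonempty := by
    refine ⟨s₁ - s₀, ?_⟩
    rw [hS, mem_ofPred_eq]
    have : x + (s₁ - s₀) • D.u = k := by
      rw [hs₁, hs₀, D.φ.map_add, D.φ.map_smul, D.φℓ, D.φu, smul_zero, add_zero]
      module
    rw [this]; exact hk
  have hcl : IsClosed S := hB.cpt.isClosed.preimage (by fun_prop)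
  have hbd : S ⊆ Icc (-(C₀ + ‖x‖)) (C₀ + ‖x‖) := by
    intro s hs
    have h1 := hB.bdd hs
    rw [mem_closedBall_zero_iff] at h1
    have h2 : ‖s • D.u‖ ≤ C₀ + ‖x‖ := by
      calc ‖s • D.u‖ = ‖(x + s • D.u) - x‖ := by rw [add_sub_cancel_left]
        _ ≤ _ := norm_sub_le _ _
        _ ≤ _ := by linarith
    rw [norm_smul, D.norm_u, mul_one, Real.norm_eq_abs] at h2
    exact abs_le.1 h2
  have hcpt : IsCompact S := isCompact_Icc.of_isClosed_subset hcl hbd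
  have hcv : Convex ℝ S := by
    intro s hs t ht α β hα hβ hαβ
    rw [hS, mem_ofPred_eq] at hs ht ⊢
    have := hB.cvx hs ht hα hβ hαβ
    convert this using 1
    have h3 : x = (α + β) • x := by rw [hαβ, one_smul]
    conv_lhs => rw [h3]
    simp only [smul_eq_mul]
    module
  have hI := eq_Icc_of_connected_compact ⟨hne, hcv.isPreconnected⟩ hcpt
  set a := sInf S
  set b := sSup S
  have hab : a ≤ b := by
    rw [← nonempty_Icc, ← hI]; exact hne
  refine ⟨a, b, hab, fun s => ?_, ?_⟩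
  · rw [← mem_Icc, ← hI, hS, mem_ofPred_eq]
  · have h4 : {s : ℝ | D.ℓ (D.φ x) + s • D.u ∈ K} = Icc (a + s₀) (b + s₀) := by
      ext s
      have h5 : D.ℓ (D.φ x) + s • D.u = x + (s - s₀) • D.u := by
        conv_rhs => rw [hs₀]
        module
      rw [mem_ofPred_eq, h5]
      have h6 : x + (s - s₀) • D.u ∈ K ↔ s - s₀ ∈ Icc a b := by rw [← hI, hS, mem_ofPred_eq]
      rw [h6, mem_Icc, mem_Icc]
      constructor <;> rintro ⟨h7, h8⟩ <;> constructor <;> linarith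
    rw [fl, h4, Real.volume_Icc, ENNReal.toReal_ofReal (by linarith)]
    ring

/-- A unit vector orthogonal to `u`. -/
theorem exists_orth {u : E} (hu : ‖u‖ = 1) : ∃ e : E, ‖e‖ = 1 ∧ ⟪u, e⟫ = 0 := by
  have : Fact (Module.finrank ℝ E = 2 + 1) := ⟨by simp⟩
  have h1 : Module.finrank ℝ (ℝ ∙ u)ᗮ = 2 :=
    Submodule.finrank_orthogonal_span_singleton (by
      rintro rfl
      simp at hu)
  have h2 : (ℝ ∙ u)ᗮ ≠ ⊥ := by
    intro h
    rw [h, finrank_bot] at h1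
    omega
  obtain ⟨v, hv, hv0⟩ := Submodule.exists_mem_ne_zero_of_ne_bot h2
  have hv1 : 0 < ‖v‖ := norm_pos_iff.2 hv0
  refine ⟨‖v‖⁻¹ • v, ?_, ?_⟩
  · rw [norm_smul, norm_inv, norm_norm, inv_mul_cancel₀ hv1.ne']
  · rw [real_inner_smul_right, Submodule.mem_orthogonal_singleton_iff_inner_right.1 hv, mul_zero]

theorem vl_pos (hB : Body C₀ K) : 0 < Vl K := by
  refine ENNReal.toReal_pos ?_ hB.cpt.measure_lt_top.ne
  have h1 : volume (ball (0 : E) 1) ≤ volume K := measure_mono (ball_subset_closedBall.trans hB.ball)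
  exact ((measure_ball_pos volume (0 : E) one_pos).trans_le h1).ne'

/-- The two cases: the upper end or the lower end of the chord is sharp. -/
theorem ends {C₀ : ℝ} (hC : 1 ≤ C₀) {K : Set E} (hB : Body C₀ K) (D : Dir) {z e a : E}
    (hz : ‖z‖ ≤ 1 / 2) (he : ‖e‖ = 1) {τ s η ε R f₀ α₀ β₀ α β αp βp : ℝ} (hs0 : 0 < s)
    (hs2 : s * (8 * C₀) ≤ 1) (hs3 : s * (4 * (2 * C₀) * (8 * C₀ + 4)) ≤ τ) (hs1' : s ≤ 1)
    (hη0 : 0 < η) (hηb : η ≤ 1) (hηc : η * (8 * C₀) ≤ τ) (hε0 : 0 < ε) (hεs : ε ≤ s / 12)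
    (hετ : ε ≤ τ / 4) (hαβ₀ : α₀ ≤ β₀)
    (hch₀ : ∀ r : ℝ, z + r • D.u ∈ K ↔ α₀ ≤ r ∧ r ≤ β₀) (hfl₀ : f₀ = β₀ - α₀) (hf1 : 1 ≤ f₀)
    (hf2 : f₀ ≤ 2 * C₀) (hau : ⟪a, D.u⟫ = 1)
    (ha : ∀ x ∈ K, ∀ x' ∈ K, ⟪a, x⟫ - ⟪a, x'⟫ ≤ f₀ * (1 + η)) (hna : ‖a‖ ≤ 2 * C₀) (hR0 : 0 ≤ R)
    (hR2 : R ≤ 2 * C₀) (hαβ : α ≤ β)
    (hch : ∀ r : ℝ, z + (s * R) • e + r • D.u ∈ K ↔ α ≤ r ∧ r ≤ β)
    (hlen : β - α ≤ f₀ * (1 - s + s / 12)) (hαβp : αp ≤ βp)
    (hchp : ∀ r : ℝ, z + R • e + r • D.u ∈ K ↔ αp ≤ r ∧ r ≤ βp)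
    (hlenp : βp - αp ≤ f₀ * (s / 12)) :
    ∃ (p : E) (σ : ℝ), (σ = 1 ∨ σ = -1) ∧ (∃ s : ℝ, p = z + s • D.u) ∧
    (∀ s : ℝ, 0 ≤ s → s ≤ 1 → p - (σ * s) • D.u ∈ K) ∧
    Sharp K (8 * C₀ + 4) (1 / (12 * C₀)) τ p := by
  have hap : ∀ x : E, ∀ r : ℝ, ⟪a, x + r • D.u⟫ = ⟪a, x⟫ + r := by
    intro x r
    rw [inner_add_right, real_inner_smul_right, hau, mul_one]
  have hpK : z + β₀ • D.u ∈ K := (hch₀ β₀).2 ⟨hαβ₀, le_rfl⟩
  have hqK : z + α₀ • D.u ∈ K := (hch₀ α₀).2 ⟨le_rfl, hαβ₀⟩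
  have htau : ε + s * (2 * C₀) * (8 * C₀ + 4) + η * f₀ + s * (2 * C₀) * (2 * C₀) ≤ τ := by
    have h3 : ε ≤ τ / 4 := hετ
    have h4 : η * f₀ ≤ η * (2 * C₀) := mul_le_mul_of_nonneg_left hf2 hη0.le
    have h5 : s * (2 * C₀) * (2 * C₀) ≤ s * (2 * C₀) * (8 * C₀ + 4) :=
      mul_le_mul_of_nonneg_left (by linarith) (by positivity)
    linarith
  by_cases hcase : f₀ / 3 ≤ ⟪a, z + β₀ • D.u⟫ - ⟪a, z + R • e + βp • D.u⟫
  · obtain ⟨b, hbu, hnb, hab, hbx⟩ := key hC hB (u := D.u) (e := e) (a := a) (z := z) D.norm_u he hz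
      (R := R) (f₀ := f₀) (η := η) (κ := s / 12) (ε := ε) (s := s) (β₀ := β₀) (β := β) (α := α)
      (βp := βp) (αp := αp) hR0 hR2 hf1 hf2 hau hna hη0.le hs0 hs1' hs2 hε0 hεs le_rfl
      (by
        intro x hx
        have h3 := ha x hx _ hqK
        rw [inner_sub_right, hap]
        rw [hap] at h3
        rw [hfl₀] at h3 ⊢
        linarith) hpK (by rw [hfl₀]; convert hqK using 3; ring)
      ((hch β).2 ⟨hαβ, le_rfl⟩) (by rw [hch]; intro h; linarith [h.2])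
      (fun r hr => ((hch r).1 hr).1) hlen ((hchp αp).2 ⟨le_rfl, hαβp⟩) hαβp hcase
    refine ⟨z + β₀ • D.u, 1, Or.inl rfl, ⟨β₀, rfl⟩, ?_, a, b, D.u, D.norm_u, hau, hbu,
      hna.trans (by linarith), hnb, hab, ?_, fun x hx => (hbx x hx).trans htau⟩
    · intro r hr0 hr1
      have h3 : z + β₀ • D.u - (1 * r) • D.u = z + (β₀ - r) • D.u := by module
      rw [h3, hch₀]
      constructor <;> linarith [hfl₀ ▸ hf1]
    · intro x hx
      have h3 := ha x hx _ hqK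
      rw [inner_sub_right, hap]
      rw [hap] at h3
      have h4 : η * f₀ ≤ τ := by
        have : 0 ≤ ε + s * (2 * C₀) * (8 * C₀ + 4) + s * (2 * C₀) * (2 * C₀) := by positivity
        linarith
      rw [hfl₀] at h3 h4
      linarith
  · have hcase' : f₀ / 3 ≤ ⟪-a, z + (-α₀) • (-D.u)⟫ - ⟪-a, z + R • e + (-αp) • (-D.u)⟫ := by
      rw [neg_smul_neg, neg_smul_neg, inner_neg_left, inner_neg_left, hap, hap]
      rw [not_le, hap, hap] at hcase
      have h3 : f₀ * (s / 12) ≤ f₀ / 3 := by nlinarith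
      linarith
    obtain ⟨b, hbu, hnb, hab, hbx⟩ := key hC hB (u := -D.u) (e := e) (a := -a) (z := z)
      (by rw [norm_neg]; exact D.norm_u) he hz
      (R := R) (f₀ := f₀) (η := η) (κ := s / 12) (ε := ε) (s := s) (β₀ := -α₀) (β := -α) (α := -β)
      (βp := -αp) (αp := -βp) hR0 hR2 hf1 hf2 (by rw [inner_neg_neg]; exact hau)
      (by rw [norm_neg]; exact hna) hη0.le hs0 hs1' hs2 hε0 hεs le_rfl
      (by
        intro x hx
        have h3 := ha _ hpK x hx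
        rw [neg_smul_neg, inner_neg_left, inner_sub_right, hap]
        rw [hap] at h3
        rw [hfl₀] at h3 ⊢
        linarith) (by rw [neg_smul_neg]; exact hqK)
      (by
        have h3 : z + (-α₀ - f₀) • (-D.u) = z + β₀ • D.u := by rw [hfl₀]; module
        rw [h3]; exact hpK)
      (by rw [neg_smul_neg]; exact (hch α).2 ⟨le_rfl, hαβ⟩)
      (by
        have h3 : z + (s * R) • e + (-α + ε) • (-D.u) = z + (s * R) • e + (α - ε) • D.u := by module
        rw [h3, hch]; intro h; linarith [h.1])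
      (fun r hr => by
        have h3 : z + (s * R) • e + r • (-D.u) = z + (s * R) • e + (-r) • D.u := by module
        rw [h3, hch] at hr
        linarith [hr.2]) (by linarith)
      (by rw [neg_smul_neg]; exact (hchp βp).2 ⟨hαβp, le_rfl⟩) (by linarith) hcase'
    rw [neg_smul_neg] at hbx
    refine ⟨z + α₀ • D.u, -1, Or.inr rfl, ⟨α₀, rfl⟩, ?_, -a, b, -D.u, by rw [norm_neg]; exact D.norm_u,
      by rw [inner_neg_neg]; exact hau, hbu, by rw [norm_neg]; exact hna.trans (by linarith), hnb, hab,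
      ?_, fun x hx => (hbx x hx).trans htau⟩
    · intro r hr0 hr1
      have h3 : z + α₀ • D.u - (-1 * r) • D.u = z + (α₀ + r) • D.u := by module
      rw [h3, hch₀]
      constructor <;> linarith [hfl₀ ▸ hf1]
    · intro x hx
      have h3 := ha _ hpK x hx
      rw [inner_neg_left, inner_sub_right, hap]
      rw [hap] at h3
      have h4 : η * f₀ ≤ τ := by
        have : 0 ≤ ε + s * (2 * C₀) * (8 * C₀ + 4) + s * (2 * C₀) * (2 * C₀) := by positivity
        linarith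
      rw [hfl₀] at h3 h4
      linarith

/-- **Block D.** -/
theorem sharp_of (hrs : P_rs) (ht : P_tent) : P_sharp := by
  intro C₀ hC
  refine ⟨8 * C₀ + 4, 1 / (12 * C₀), by positivity, by positivity, fun τ hτ => ?_⟩
  set s : ℝ := min (1 / (8 * C₀)) (τ / (4 * (2 * C₀) * (8 * C₀ + 4))) with hs
  have hs0 : 0 < s := by positivity
  have hs1 : s ≤ 1 / (8 * C₀) := min_le_left _ _
  have hs2 : s * (8 * C₀) ≤ 1 := by rwa [le_div_iff₀ (by positivity)] at hs1
  have hs3 : s * (4 * (2 * C₀) * (8 * C₀ + 4)) ≤ τ := by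
    have := min_le_right (1 / (8 * C₀)) (τ / (4 * (2 * C₀) * (8 * C₀ + 4)))
    rwa [← hs, le_div_iff₀ (by positivity)] at this
  have hs1' : s ≤ 1 := by nlinarith
  obtain ⟨η₁, hη₁, ht⟩ := ht C₀ (s / 12) hC (by positivity)
  set η : ℝ := min η₁ (min 1 (τ / (8 * C₀))) with hη
  have hη0 : 0 < η := by positivity
  have hηa : η ≤ η₁ := min_le_left _ _
  have hηb : η ≤ 1 := (min_le_right _ _).trans (min_le_left _ _)
  have hηc : η * (8 * C₀) ≤ τ := by
    have := (min_le_right η₁ (min 1 (τ / (8 * C₀)))).trans (min_le_right _ _)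
    rwa [← hη, le_div_iff₀ (by positivity)] at this
  set ε : ℝ := min (s / 12) (τ / 4) with hε
  have hε0 : 0 < ε := by positivity
  refine ⟨η, hη0, fun K hB D z hz hgood => ?_⟩
  have hV := vl_pos hB
  have hzK : z ∈ K := hB.ball (by rw [mem_closedBall_zero_iff]; linarith)
  -- the chord of `z`
  obtain ⟨α₀, β₀, hαβ₀, hch₀, hfl₀⟩ := chord hB D (x := z) ⟨z, hzK, rfl⟩
  set f₀ := fl D K (D.φ z) with hf₀
  have hin : ∀ r : ℝ, |r| ≤ 1 / 2 → z + r • D.u ∈ K := by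
    intro r hr
    refine hB.ball ?_
    rw [mem_closedBall_zero_iff]
    refine (norm_add_le _ _).trans ?_
    rw [norm_smul, D.norm_u, mul_one, Real.norm_eq_abs]
    linarith
  have h1 := (hch₀ (1 / 2)).1 (hin _ (by rw [abs_of_pos] <;> norm_num))
  have h2 := (hch₀ (-(1 / 2))).1 (hin _ (by rw [abs_neg, abs_of_pos] <;> norm_num))
  have hf1 : 1 ≤ f₀ := by rw [hfl₀]; linarith [h1.2, h2.1]
  have hpK : z + β₀ • D.u ∈ K := (hch₀ β₀).2 ⟨hαβ₀, le_rfl⟩
  have hqK : z + α₀ • D.u ∈ K := (hch₀ α₀).2 ⟨le_rfl, hαβ₀⟩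
  have hf2 : f₀ ≤ 2 * C₀ := by
    have h3 := hB.bdd hpK
    have h4 := hB.bdd hqK
    rw [mem_closedBall_zero_iff] at h3 h4
    have h5 : ‖(β₀ - α₀) • D.u‖ ≤ 2 * C₀ := by
      calc ‖(β₀ - α₀) • D.u‖ = ‖(z + β₀ • D.u) - (z + α₀ • D.u)‖ := by
            congr 1; module
        _ ≤ _ := norm_sub_le _ _
        _ ≤ 2 * C₀ := by linarith
    rw [norm_smul, D.norm_u, mul_one, Real.norm_eq_abs] at h5
    rw [hfl₀]
    exact (le_abs_self _).trans h5
  -- the first normal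
  have hd : ∀ x ∈ K, x + (f₀ * (1 + η)) • D.u ∉ K := by
    intro x hx hx'
    obtain ⟨a, b, hab, hch, hfl⟩ := chord hB D (x := x) ⟨x, hx, rfl⟩
    have h3 := (hch 0).1 (by simpa using hx)
    have h4 := (hch _).1 hx'
    have h5 := hrs C₀ K hB D (D.φ x)
    have h6 : f₀ * (1 + η) ≤ fl D K (D.φ x) := by rw [hfl]; linarith [h3.1, h4.2]
    have hAr : 0 ≤ D.c * Ar D K := mul_nonneg D.c_pos.le ENNReal.toReal_nonneg
    have h7 := (mul_le_mul_of_nonneg_left h6 hAr).trans h5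
    have h8 : 0 < D.c * Ar D K * f₀ := lt_of_lt_of_le (by nlinarith) hgood
    nlinarith [mul_pos h8 hη0]
  obtain ⟨a, hau, ha⟩ := first_normal hB.cpt hB.cvx ⟨z, hzK⟩ (show 0 < f₀ * (1 + η) by positivity) hd
  have hna : ‖a‖ ≤ 2 * C₀ := by
    have h3 := norm_le_of_ball (b := a) (z := 0) (r := 1) (M := 2 * C₀) one_pos (by
      intro x hx
      rw [sub_zero] at hx ⊢
      have h4 := ha x (hB.ball (by rwa [mem_closedBall_zero_iff])) (-x)
        (hB.ball (by rwa [mem_closedBall_zero_iff, norm_neg]))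
      rw [inner_neg_right] at h4
      nlinarith)
    linarith
  -- the ray
  obtain ⟨e, he, hue⟩ := exists_orth D.norm_u
  set T : Set ℝ := {r | 0 ≤ r ∧ D.φ (z + r • e) ∈ D.φ '' K} with hT
  have hTb : ∀ r ∈ T, r ≤ 2 * C₀ := by
    rintro r ⟨hr0, k, hk, hkr⟩
    obtain ⟨t₀, ht₀⟩ := D.dec k
    obtain ⟨t₁, ht₁⟩ := D.dec (z + r • e)
    rw [hkr] at ht₀
    have h3 : k - z = r • e + (t₀ - t₁) • D.u := by
      have : k - (z + r • e) = (t₀ - t₁) • D.u := by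
        rw [ht₀, ht₁, D.φ.map_add (D.ℓ _), D.φ.map_smul, D.φℓ, D.φu, smul_zero, add_zero]
        module
      rw [← this]; abel
    have h4 : ⟪e, k - z⟫ = r := by
      rw [h3, inner_add_right, real_inner_smul_right, real_inner_smul_right,
        real_inner_self_eq_norm_sq, he, real_inner_comm, hue]
      ring
    have h5 := (le_abs_self _).trans (abs_real_inner_le_norm e (k - z))
    rw [h4, he, one_mul] at h5
    have h6 := hB.bdd hk
    rw [mem_closedBall_zero_iff] at h6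
    have h7 := norm_sub_le k z
    linarith
  have hTc : IsCompact T := by
    refine isCompact_Icc.of_isClosed_subset (s := Icc (0 : ℝ) (2 * C₀)) ?_
      fun r hr => ⟨hr.1, hTb r hr⟩
    have h3 : IsClosed (D.φ '' K) := (hB.cpt.image D.φ.continuous).isClosed
    exact isClosed_Ici.inter (h3.preimage (by fun_prop))
  have hT2 : (1 / 2 : ℝ) ∈ T := by
    refine ⟨by norm_num, mem_image_of_mem _ (hB.ball ?_)⟩
    rw [mem_closedBall_zero_iff]
    refine (norm_add_le _ _).trans ?_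
    rw [norm_smul, he, mul_one, Real.norm_eq_abs, abs_of_pos (by norm_num)]
    linarith
  set R : ℝ := sSup T with hR
  have hRT : R ∈ T := hTc.sSup_mem ⟨_, hT2⟩
  have hRmax : ∀ r ∈ T, r ≤ R := fun r hr => le_csSup hTc.bddAbove hr
  have hR1 : 1 / 2 ≤ R := hRmax _ hT2
  have hR2 : R ≤ 2 * C₀ := hTb _ hRT
  have hw1 : D.φ (z + R • e) ∈ D.φ '' K := hRT.2
  have hw2 : ∀ r : ℝ, 1 < r → D.φ (z + r • (R • e)) ∉ D.φ '' K := by
    intro r hr hcon
    rw [smul_smul] at hcon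
    have := hRmax (r * R) ⟨by positivity, hcon⟩
    nlinarith
  have htent := ht K hB D z hz (by nlinarith) (R • e) hw1 hw2
  -- the chord over `x_s`
  have hxs : D.φ (z + (s * R) • e) ∈ D.φ '' K := by
    obtain ⟨k, hk, hkR⟩ := hw1
    refine ⟨(1 - s) • z + s • k, hB.cvx hzK hk (by linarith) hs0.le (by ring), ?_⟩
    rw [map_add, map_smul, map_smul, hkR, ← map_smul, ← map_smul, ← map_add]
    congr 1
    module
  obtain ⟨α, β, hαβ, hch, hfl⟩ := chord hB D hxs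
  have hlen : β - α ≤ f₀ * (1 - s + s / 12) := by
    have := htent s hs0.le hs1'
    rwa [smul_smul, hfl] at this
  -- the chord over the end of the ray
  obtain ⟨αp, βp, hαβp, hchp, hflp⟩ := chord hB D hw1
  have hlenp : βp - αp ≤ f₀ * (s / 12) := by
    have := htent 1 zero_le_one le_rfl
    rw [one_smul, hflp] at this
    linarith
  exact ends hC hB D hz he hs0 hs2 hs3 hs1' hη0 hηb hηc hε0 (min_le_left _ _) (min_le_right _ _)
    hαβ₀ hch₀ hfl₀ hf1 hf2 hau ha hna (by linarith) hR2 hαβ hch hlen hαβp hchp hlenp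

end Vale.Agent.P243.LB
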